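import Vale.Agent.P157.Patterns

/-!
Product priors: block factorisation and the near-superadditivity estimate.
-/

namespace Vale.Agent.P157

open MeasureTheory ProbabilityTheory Real
open scoped ENNReal

variable {Φ : Pot}

/-- Averaged log-partition function of a block with `M` patterns. -/
noncomputable def blockQ (Φ : Pot) {ι : Type} [Fintype ι] (p : Measure (ι → ℝ))
    (M : ℕ) : ℝ := elogZ Φ p (fun _ : Fin M => id)

lemma blockQ_zero {ι : Type} [Fintype ι] (p : Measure (ι → ℝ)) [IsProbabilityMeasure p] :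
    blockQ Φ p 0 = 0 := by
  simp [blockQ, elogZ, logZ, wprod]

lemma blockQ_step {ι : Type} [Fintype ι] (p : Measure (ι → ℝ))
    [IsProbabilityMeasure p] (M : ℕ) : |blockQ Φ p (M + 1) - blockQ Φ p M| ≤ Φ.bd := by
  have hz : ∀ (N : ℕ) (m : Fin N), Measurable ((fun _ : Fin N => (id : (ι → ℝ) → ι → ℝ)) m) :=
    fun N m => measurable_id
  have hm := mp_comp (gauss ι) (Fin.succ_injective M)
  have e : blockQ Φ p M = ∫ G : Fin (M + 1) → ι → ℝ,
      logZ Φ p (fun _ : Fin M => id) (fun i => G i.succ) ∂(pgauss (M + 1) ι) :=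
    (integral_comp_mp hm (measurable_logZ p (hz M))).symm
  have i1 := integrable_logZ (Φ := Φ) p (hz (M + 1))
  have i2 : Integrable (fun G : Fin (M + 1) → ι → ℝ =>
      logZ Φ p (fun _ : Fin M => id) (fun i => G i.succ)) (pgauss (M + 1) ι) :=
    hm.integrable_comp_of_integrable (integrable_logZ p (hz M))
  rw [e]
  change |(∫ G, logZ Φ p (fun _ : Fin (M + 1) => id) G ∂(pgauss (M + 1) ι)) - _| ≤ _
  rw [← integral_sub i1 i2]
  have := norm_integral_le_of_norm_le_const (μ := pgauss (M + 1) ι) (C := Φ.bd)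
    (f := fun G => logZ Φ p (fun _ : Fin (M + 1) => id) G
      - logZ Φ p (fun _ : Fin M => id) (fun i => G i.succ)) ?_
  · simpa using this
  refine Filter.Eventually.of_forall fun G => ?_
  set P := fun x => wprod Φ (fun _ : Fin M => (id : (ι → ℝ) → ι → ℝ)) (fun i => G i.succ) x
  have hpos : ∀ x, 0 < P x := fun x =>
    lt_of_lt_of_le (pow_pos (by linarith [Φ.lo_pos]) _) (wprod_mem _ _ x).1
  have hP : Integrable P p := integrable_wprod p (hz M) _
  have hlow := intWprod_mem (Φ := Φ) p (hz M) (fun i => G i.succ)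
  simp only [probReal_univ, mul_one] at hlow
  have hI : 0 < ∫ x, P x ∂p := lt_of_lt_of_le (pow_pos (by linarith [Φ.lo_pos]) _) hlow.1
  have h1 : ∀ x, wprod Φ (fun _ : Fin (M + 1) => (id : (ι → ℝ) → ι → ℝ)) G x
      = Φ.fn (field id (G 0) x) * P x := fun x => by simp [wprod, P, Fin.prod_univ_succ]
  have hW : Integrable (fun x => Φ.fn (field id (G 0) x) * P x) p :=
    (integrable_wprod p (hz (M + 1)) G).congr (Filter.Eventually.of_forall h1)
  have hl : Φ.lo * ∫ x, P x ∂p
      ≤ ∫ x, Φ.fn (field id (G 0) x) * P x ∂p := by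
    rw [← integral_const_mul]
    exact integral_mono (hP.const_mul _) hW fun x =>
      mul_le_mul_of_nonneg_right (Φ.mem _).1 (hpos x).le
  have hu : ∫ x, Φ.fn (field id (G 0) x) * P x ∂p
      ≤ Φ.hi * ∫ x, P x ∂p := by
    rw [← integral_const_mul]
    exact integral_mono hW (hP.const_mul _) fun x =>
      mul_le_mul_of_nonneg_right (Φ.mem _).2 (hpos x).le
  have hlo : 0 < Φ.lo := Φ.lo_pos
  have hhi : 0 < Φ.hi := by
    exact Φ.lo_pos.trans_le ((Φ.mem 0).1.trans (Φ.mem 0).2)
  have hmid := (mul_pos hlo hI).trans_le hl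
  have L := Real.log_le_log (mul_pos hlo hI) hl
  have U := Real.log_le_log hmid hu
  rw [Real.log_mul hlo.ne' hI.ne'] at L
  rw [Real.log_mul hhi.ne' hI.ne'] at U
  rw [Real.norm_eq_abs]
  simp only [logZ, h1]
  exact abs_le_max_abs_abs (by linarith) (by linarith)

lemma blockQ_lip {ι : Type} [Fintype ι] (p : Measure (ι → ℝ))
    [IsProbabilityMeasure p] (M M' : ℕ) :
    |blockQ Φ p M - blockQ Φ p M'| ≤ Φ.bd * |(M : ℝ) - M'| := by
  wlog h : M' ≤ M generalizing M M'
  · rw [abs_sub_comm, abs_sub_comm (M : ℝ)]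
    exact this M' M (le_of_not_ge h)
  induction M, h using Nat.le_induction with
  | base => simp
  | succ M h ih =>
    have hc : (M' : ℝ) ≤ M := by exact_mod_cast h
    rw [abs_of_nonneg (by linarith : (0:ℝ) ≤ (M : ℝ) - M')] at ih
    push_cast
    rw [abs_of_nonneg (by linarith : (0:ℝ) ≤ (M : ℝ) + 1 - M')]
    have := abs_sub_le (blockQ Φ p (M + 1)) (blockQ Φ p M) (blockQ Φ p M')
    have := blockQ_step (Φ := Φ) p M
    linarith [mul_add (Φ.bd) ((M : ℝ) - M') 1]

section counts

variable {K : Type} [Fintype K] [DecidableEq K]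

/-- Number of patterns sent to block `j`. -/
def cnt {M : ℕ} (c : Fin M → K) (j : K) : ℕ := (Finset.univ.filter fun m => c m = j).card

lemma cnt_cons {M : ℕ} (i : K) (c : Fin M → K) (j : K) :
    (cnt (Fin.cons i c : Fin (M + 1) → K) j : ℝ) = cnt c j + if i = j then 1 else 0 := by
  have h : ∀ (N : ℕ) (d : Fin N → K), (cnt d j : ℝ) = ∑ m, if d m = j then (1 : ℝ) else 0 := by
    intro N d; simp [cnt]
  rw [h, h, Fin.sum_univ_succ]
  simp [add_comm]

lemma wt_nonneg {lam : K → ℝ} (h0 : ∀ j, 0 ≤ lam j) {M : ℕ} (c : Fin M → K) : 0 ≤ wt lam c :=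
  Finset.prod_nonneg fun m _ => h0 _

lemma count_moments {lam : K → ℝ} (h1 : ∑ j, lam j = 1) (j : K) (M : ℕ) :
    (∑ c : Fin M → K, wt lam c) = 1 ∧
    (∑ c : Fin M → K, wt lam c * ((cnt c j : ℝ) - M * lam j)) = 0 ∧
    (∑ c : Fin M → K, wt lam c * ((cnt c j : ℝ) - M * lam j) ^ 2) = M * (lam j * (1 - lam j)) := by
  induction M with
  | zero => simp [wt, cnt]
  | succ M ih =>
    obtain ⟨a0, a1, a2⟩ := ih
    have hw : ∀ (i : K) (c : Fin M → K),
        wt lam (Fin.cons i c : Fin (M + 1) → K) = lam i * wt lam c := fun i c => by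
      simp [wt, Fin.prod_univ_succ]
    have e1 : ∑ i, lam i * ((if i = j then (1:ℝ) else 0) - lam j) = 0 := by
      simp [mul_sub, Finset.sum_sub_distrib, ← Finset.sum_mul, h1]
    have e2 : ∑ i, lam i * ((if i = j then (1:ℝ) else 0) - lam j) ^ 2 = lam j * (1 - lam j) := by
      have : ∀ i, lam i * ((if i = j then (1:ℝ) else 0) - lam j) ^ 2
          = (if i = j then lam i * (1 - 2 * lam j) else 0) + lam i * lam j ^ 2 := fun i => by
        split <;> ring
      rw [Finset.sum_congr rfl fun i _ => this i, Finset.sum_add_distrib, ← Finset.sum_mul, h1]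
      simp
      ring
    refine ⟨?_, ?_, ?_⟩
    · rw [sum_cons]
      simp [hw, ← Finset.mul_sum, a0, h1]
    · rw [sum_cons, ← e1]
      refine Finset.sum_congr rfl fun i _ => ?_
      simp only [hw, cnt_cons]
      calc _ = lam i * ((∑ c : Fin M → K, wt lam c * ((cnt c j : ℝ) - M * lam j))
            + ((if i = j then (1:ℝ) else 0) - lam j) * ∑ c : Fin M → K, wt lam c) := by
            rw [Finset.mul_sum, ← Finset.sum_add_distrib, Finset.mul_sum]
            exact Finset.sum_congr rfl fun c _ => by push_cast; ring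
        _ = _ := by rw [a0, a1]; ring
    · rw [sum_cons]
      have : ∀ i, (∑ c : Fin M → K, wt lam (Fin.cons i c : Fin (M + 1) → K) *
          ((cnt (Fin.cons i c : Fin (M + 1) → K) j : ℝ) - (M + 1 : ℕ) * lam j) ^ 2)
          = lam i * (M * (lam j * (1 - lam j)))
            + lam i * ((if i = j then (1:ℝ) else 0) - lam j) ^ 2 := by
        intro i
        simp only [hw, cnt_cons]
        set d := (if i = j then (1:ℝ) else 0) - lam j
        calc _ = lam i * ((∑ c : Fin M → K, wt lam c * ((cnt c j : ℝ) - M * lam j) ^ 2)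
              + 2 * d * (∑ c : Fin M → K, wt lam c * ((cnt c j : ℝ) - M * lam j))
              + d ^ 2 * ∑ c : Fin M → K, wt lam c) := by
              rw [Finset.mul_sum, Finset.mul_sum, ← Finset.sum_add_distrib,
                ← Finset.sum_add_distrib, Finset.mul_sum]
              exact Finset.sum_congr rfl fun c _ => by push_cast; simp only [d]; ring
          _ = _ := by rw [a0, a1, a2]; ring
      rw [Finset.sum_congr rfl fun i _ => this i, Finset.sum_add_distrib, e2, ← Finset.sum_mul, h1]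
      push_cast
      ring

lemma count_abs {lam : K → ℝ} (h0 : ∀ j, 0 ≤ lam j) (h1 : ∑ j, lam j = 1) (j : K) (M : ℕ) :
    ∑ c : Fin M → K, wt lam c * |(cnt c j : ℝ) - M * lam j| ≤ Real.sqrt (M * lam j) := by
  obtain ⟨a0, -, a2⟩ := count_moments h1 j M
  refine Real.le_sqrt_of_sq_le ?_
  have := Finset.sum_sq_le_sum_mul_sum_of_sq_le_mul Finset.univ
    (r := fun c : Fin M → K => wt lam c * |(cnt c j : ℝ) - M * lam j|)
    (f := fun c => wt lam c) (g := fun c => wt lam c * ((cnt c j : ℝ) - M * lam j) ^ 2)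
    (fun c _ => wt_nonneg h0 c) (fun c _ => mul_nonneg (wt_nonneg h0 c) (sq_nonneg _))
    (fun c _ => le_of_eq (by rw [mul_pow, sq_abs]; ring))
  rw [a0, a2, one_mul] at this
  refine this.trans ?_
  have : 0 ≤ (M : ℝ) := Nat.cast_nonneg M
  nlinarith [mul_nonneg this (sq_nonneg (lam j))]

end counts

section product

variable {K : Type} [Fintype K] [DecidableEq K] {B : K → Type} [∀ j, Fintype (B j)]

/-- All coordinates of a configuration made of blocks. -/
def flat (x : ∀ j, B j → ℝ) (i : Σ j, B j) : ℝ := x i.1 i.2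

omit [Fintype K] [DecidableEq K] [∀ j, Fintype (B j)] in
lemma measurable_flat : Measurable (flat (B := B)) := by
  unfold flat
  exact measurable_pi_lambda _ fun i =>
    (measurable_pi_apply i.2).comp (measurable_pi_apply i.1)

lemma field_blk (j : K) (g : (Σ j, B j) → ℝ) (x : ∀ j, B j → ℝ) :
    field (blkC Sigma.fst j flat) g x = ∑ i : B j, g ⟨j, i⟩ * x j i := by
  rw [field, ← Finset.univ_sigma_univ, Finset.sum_sigma, Finset.sum_eq_single j]
  · simp [blkC, flat]
  · intro i _ hi
    simp [blkC, hi]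
  · simp

variable (p : ∀ j, Measure (B j → ℝ)) [∀ j, IsProbabilityMeasure (p j)]

/-- An assignment of patterns to blocks factorises. -/
lemma elogZ_assign {M : ℕ} (c : Fin M → K) :
    elogZ Φ (Measure.pi p) (fun m => blkC Sigma.fst (c m) (flat (B := B)))
      = ∑ j, blockQ Φ (p j) (cnt c j) := by
  set ef : ∀ j, Fin (cnt c j) → Fin M :=
    fun j l => ((Finset.univ.filter fun m => c m = j).equivFin.symm l : Fin M)
  have hef : ∀ j, Function.Injective (ef j) := fun j =>
    Subtype.val_injective.comp (Equiv.injective _)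
  set res : ∀ j, (Fin M → (Σ j, B j) → ℝ) → (Fin (cnt c j) → B j → ℝ) :=
    fun j G l i => G (ef j l) ⟨j, i⟩
  have hres : ∀ j, MeasurePreserving (res j) (pgauss M (Σ j, B j)) (pgauss (cnt c j) (B j)) := by
    intro j
    have h1 : MeasurePreserving (fun (G : Fin (cnt c j) → (Σ j, B j) → ℝ) l i => G l ⟨j, i⟩)
        (Measure.pi fun _ => gauss (Σ j, B j)) (Measure.pi fun _ => gauss (B j)) :=
      measurePreserving_pi _ _ fun _ =>
        mp_comp (gaussianReal 0 1) (e := fun i : B j => (⟨j, i⟩ : Σ j, B j))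
          (fun x y h => by simpa using h)
    exact h1.comp (mp_comp (gauss (Σ j, B j)) (hef j))
  have hfac : ∀ G x, wprod Φ (fun m => blkC Sigma.fst (c m) (flat (B := B))) G x
      = ∏ j, wprod Φ (fun _ : Fin (cnt c j) => id) (res j G) (x j) := by
    intro G x
    rw [wprod, ← Finset.prod_fiberwise Finset.univ c]
    refine Finset.prod_congr rfl fun j _ => ?_
    rw [← Finset.prod_coe_sort, ← Equiv.prod_comp (Finset.univ.filter fun m => c m = j).equivFin.symm]
    refine Finset.prod_congr rfl fun l _ => ?_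
    have hc : c ((Finset.univ.filter fun m => c m = j).equivFin.symm l : Fin M) = j :=
      (Finset.mem_filter.1 ((Finset.univ.filter fun m => c m = j).equivFin.symm l).2).2
    simp only [hc, field_blk]
    rfl
  have hz : ∀ (j : K) (m : Fin (cnt c j)),
      Measurable ((fun _ : Fin (cnt c j) => (id : (B j → ℝ) → B j → ℝ)) m) :=
    fun j m => measurable_id
  rw [elogZ]
  calc _ = ∫ G, ∑ j, logZ Φ (p j) (fun _ : Fin (cnt c j) => id) (res j G)
        ∂(pgauss M (Σ j, B j)) := by
        refine integral_congr_ae (Filter.Eventually.of_forall fun G => ?_)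
        simp only [logZ, hfac]
        rw [integral_fintype_prod_eq_prod
          (f := fun j x => wprod Φ (fun _ : Fin (cnt c j) => id) (res j G) x), Real.log_prod]
        intro j _
        have := (intWprod_mem (Φ := Φ) (p j) (hz j) (res j G)).1
        simp only [probReal_univ, mul_one] at this
        exact (lt_of_lt_of_le (pow_pos (by linarith [Φ.lo_pos]) _) this).ne'
    _ = _ := by
        rw [integral_finsetSum]
        · exact Finset.sum_congr rfl fun j _ =>
            integral_comp_mp (hres j) (measurable_logZ (p j) (hz j))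
        · exact fun j _ =>
            (hres j).integrable_comp_of_integrable (integrable_logZ (p j) (hz j))

/-- Near superadditivity. -/
theorem blocks_le {lam : K → ℝ} (h0 : ∀ j, 0 ≤ lam j)
    (h1 : ∑ j, lam j = 1) (hun : UnitBlk Sigma.fst lam (flat (B := B)) (Measure.pi p))
    (M : ℕ) (μ : K → ℕ) :
    ∑ j, (blockQ Φ (p j) (μ j)
        - Φ.bd * (Real.sqrt (M * lam j) + |(M : ℝ) * lam j - μ j|))
      ≤ elogZ Φ (Measure.pi p) (fun _ : Fin M => mixC Sigma.fst lam (flat (B := B))) := by
  refine le_trans ?_ (split_le Sigma.fst h0 h1 measurable_flat M (Measure.pi p) inferInstance hun)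
  simp_rw [elogZ_assign p , Finset.mul_sum]
  rw [Finset.sum_comm]
  refine Finset.sum_le_sum fun j _ => ?_
  obtain ⟨a0, -, -⟩ := count_moments h1 j M
  calc blockQ Φ (p j) (μ j)
        - Φ.bd * (Real.sqrt (M * lam j) + |(M : ℝ) * lam j - μ j|)
      ≤ ∑ c : Fin M → K, wt lam c * (blockQ Φ (p j) (μ j)
          - Φ.bd * (|(cnt c j : ℝ) - M * lam j| + |(M : ℝ) * lam j - μ j|)) := by
        have e : ∀ c : Fin M → K, wt lam c * (blockQ Φ (p j) (μ j)
            - Φ.bd * (|(cnt c j : ℝ) - M * lam j| + |(M : ℝ) * lam j - μ j|))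
            = wt lam c * (blockQ Φ (p j) (μ j) - Φ.bd * |(M : ℝ) * lam j - μ j|)
              - Φ.bd * (wt lam c * |(cnt c j : ℝ) - M * lam j|) := fun c => by ring
        rw [Finset.sum_congr rfl fun c _ => e c, Finset.sum_sub_distrib, ← Finset.sum_mul, a0,
          ← Finset.mul_sum]
        nlinarith [count_abs h0 h1 j M, Φ.bd_nonneg]
    _ ≤ _ := by
        refine Finset.sum_le_sum fun c _ => mul_le_mul_of_nonneg_left ?_ (wt_nonneg h0 c)
        have h3 := (abs_le.1 (blockQ_lip (Φ := Φ) (p j) (cnt c j) (μ j))).1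
        have h4 := mul_le_mul_of_nonneg_left (abs_sub_le (cnt c j : ℝ) (M * lam j) (μ j))
          (Φ.bd_nonneg)
        linarith

end product

end Vale.Agent.P157
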