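import Vale.Agent.P157.Sphere

/-!
The potentials `log (a - ∫ cos (ξ t) dν)`.
-/

namespace Vale.Agent.P157

open MeasureTheory

/-- The weight `a - ∫ cos (ξ t) dν`. -/
noncomputable def cosPot (a : ℝ) (ν : Measure ℝ) [IsFiniteMeasure ν]
    (ha : (ν Set.univ).toReal < a) : Pot where
  fn t := a - cosT ν t
  lo := a - ν.real Set.univ
  hi := a + ν.real Set.univ
  lo_pos := by rw [measureReal_def]; linarith
  mem t := by
    obtain ⟨h1, h2⟩ := abs_le.1 (abs_cosT_le ν t)
    constructor <;> linarith
  meas := (continuous_const.sub (continuous_cosT ν)).measurable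
  one := fun w _ b _ h0 h1 _ hy _ => one_pattern ν w b h0 h1 hy ha

end Vale.Agent.P157
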