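import Vale.Agent.P157.Kernel
import Vale.Agent.P150.SlowCosh

/-!
Length and direction of a standard Gaussian vector.
-/

namespace Vale.Agent.P157

open MeasureTheory ProbabilityTheory Real Metric
open scoped ENNReal

/-- The normalised surface measure on the unit sphere of `ℝ^m`. -/
noncomputable def surface (m : ℕ) : Measure (sphere (0 : EuclideanSpace ℝ (Fin m)) 1) :=
  ((volume : Measure (EuclideanSpace ℝ (Fin m))).toSphere Set.univ)⁻¹ •
    (volume : Measure (EuclideanSpace ℝ (Fin m))).toSphere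

/-- Euclidean length. -/
noncomputable def nrm {ι : Type*} [Fintype ι] (G : ι → ℝ) : ℝ := Real.sqrt (∑ i, G i ^ 2)

/-- Direction. -/
noncomputable def dirn {ι : Type*} [Fintype ι] (G : ι → ℝ) (i : ι) : ℝ := G i / nrm G

lemma measurable_nrm {ι : Type*} [Fintype ι] : Measurable (nrm (ι := ι)) := by
  unfold nrm; fun_prop

lemma measurable_dirn {ι : Type*} [Fintype ι] : Measurable (dirn (ι := ι)) :=
  measurable_pi_lambda _ fun i => (measurable_pi_apply i).div measurable_nrm

lemma nrm_nonneg {ι : Type*} [Fintype ι] (G : ι → ℝ) : 0 ≤ nrm G := Real.sqrt_nonneg _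

lemma nrm_sq {ι : Type*} [Fintype ι] (G : ι → ℝ) : nrm G ^ 2 = ∑ i, G i ^ 2 :=
  Real.sq_sqrt (Finset.sum_nonneg fun _ _ => sq_nonneg _)

/-- The law of the direction of a Gaussian vector. -/
noncomputable def unitLaw (m : ℕ) : Measure (Fin m → ℝ) := (gauss (Fin m)).map dirn

instance (m : ℕ) : IsProbabilityMeasure (unitLaw m) :=
  Measure.isProbabilityMeasure_map measurable_dirn.aemeasurable

lemma lintegral_prod_pi : ∀ (m : ℕ) (f : Fin m → ℝ → ℝ≥0∞), (∀ i, Measurable (f i)) →
    ∫⁻ x : Fin m → ℝ, ∏ i, f i (x i) = ∏ i, ∫⁻ t, f i t := by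
  intro m
  induction m with
  | zero =>
    intro f _
    rw [volume_pi, Measure.pi_of_empty]
    simp
  | succ m ih =>
    intro f hf
    have h := measurePreserving_piFinSuccAbove (fun _ : Fin (m + 1) => (volume : Measure ℝ)) 0
    rw [volume_pi, ← h.symm.lintegral_comp_emb (MeasurableEquiv.measurableEmbedding _)]
    simp only [Fin.prod_univ_succ]
    rw [← ih (fun i => f i.succ) fun i => hf _, volume_pi,
      ← lintegral_prod_mul (f := f 0) (g := fun x : Fin m → ℝ => ∏ i, f i.succ (x i))
        (hf 0).aemeasurable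
        (Finset.measurable_prod _ fun i _ => (hf _).comp (measurable_pi_apply i)).aemeasurable]
    refine lintegral_congr fun p => ?_
    simp [MeasurableEquiv.piFinSuccAbove_symm_apply, Fin.consEquiv]

lemma gauss_density (m : ℕ) :
    gauss (Fin m) = (volume : Measure (Fin m → ℝ)).withDensity
      fun x => ∏ i, gaussianPDF 0 1 (x i) := by
  refine (Measure.pi_eq fun s hs => ?_)
  rw [withDensity_apply _ (MeasurableSet.univ_pi hs), ← lintegral_indicator (MeasurableSet.univ_pi hs)]
  have : ∀ x : Fin m → ℝ, (Set.univ.pi s).indicator (fun x => ∏ i, gaussianPDF 0 1 (x i)) x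
      = ∏ i, (s i).indicator (gaussianPDF 0 1) (x i) := by
    intro x
    by_cases h : x ∈ Set.univ.pi s
    · rw [Set.indicator_of_mem h]
      exact Finset.prod_congr rfl fun i _ => by
        rw [Set.indicator_of_mem (h i (Set.mem_univ i))]
    · rw [Set.indicator_of_notMem h]
      simp only [Set.mem_univ_pi, not_forall] at h
      obtain ⟨i, hi⟩ := h
      exact (Finset.prod_eq_zero (Finset.mem_univ i) (by simp [hi])).symm
  simp only [this]
  rw [lintegral_prod_pi m _ fun i => (measurable_gaussianPDF 0 1).indicator (hs i)]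
  refine Finset.prod_congr rfl fun i _ => ?_
  rw [lintegral_indicator (hs i), gaussianReal_apply 0 one_ne_zero]

/-- Coordinates of a point of the sphere. -/
def sphereCoord {m : ℕ} (u : sphere (0 : EuclideanSpace ℝ (Fin m)) 1) (i : Fin m) : ℝ :=
  (u : EuclideanSpace ℝ (Fin m)) i

lemma measurable_sphereCoord {m : ℕ} : Measurable (sphereCoord (m := m)) := by
  unfold sphereCoord; fun_prop

/-- The radial weight. -/
noncomputable def radial (m : ℕ) (r : ℝ) : ℝ≥0∞ :=
  ENNReal.ofReal ((Real.sqrt (2 * π))⁻¹ ^ m * Real.exp (-r ^ 2 / 2))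

lemma prod_pdf {m : ℕ} (x : EuclideanSpace ℝ (Fin m)) :
    ∏ i, gaussianPDF 0 1 (x i) = radial m ‖x‖ := by
  simp only [gaussianPDF, gaussianPDFReal, radial]
  rw [← ENNReal.ofReal_prod_of_nonneg fun i _ => by positivity, Finset.prod_mul_distrib,
    ← Real.exp_sum, EuclideanSpace.norm_eq, Real.sq_sqrt (by positivity)]
  simp [← Finset.sum_neg_distrib, ← Finset.sum_div]

/-- Euclidean space of dimension `m`. -/
abbrev Esp (m : ℕ) : Type := EuclideanSpace ℝ (Fin m)

lemma rect {m : ℕ} (hm : 0 < m) {A : Set ℝ} (hA : MeasurableSet A) {D : Set (Fin m → ℝ)}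
    (hD : MeasurableSet D) :
    gauss (Fin m) (nrm ⁻¹' A ∩ dirn ⁻¹' D)
      = (∫⁻ r : Set.Ioi (0 : ℝ), A.indicator (radial m) r ∂(Measure.volumeIoiPow (m - 1)))
        * (volume : Measure (EuclideanSpace ℝ (Fin m))).toSphere (sphereCoord ⁻¹' D) := by
  haveI : NeZero m := ⟨hm.ne'⟩
  have hT := PiLp.volume_preserving_toLp (Fin m)
  have hS : MeasurableSet (nrm ⁻¹' A ∩ dirn ⁻¹' D) :=
    (measurable_nrm hA).inter (measurable_dirn hD)
  have hofLp : Measurable fun x : (Esp m) => (fun i => x i : Fin m → ℝ) := by fun_prop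
  rw [gauss_density, withDensity_apply _ hS, ← lintegral_indicator hS]
  have hmeas : Measurable fun x : (Esp m) => (nrm ⁻¹' A ∩ dirn ⁻¹' D).indicator
      (fun y => ∏ i, gaussianPDF 0 1 (y i)) (fun i => x i) :=
    (Measurable.indicator (by fun_prop) hS).comp hofLp
  have e1 : ∫⁻ x, (nrm ⁻¹' A ∩ dirn ⁻¹' D).indicator (fun y => ∏ i, gaussianPDF 0 1 (y i)) x
      = ∫⁻ x : (Esp m), (nrm ⁻¹' A ∩ dirn ⁻¹' D).indicator (fun y => ∏ i, gaussianPDF 0 1 (y i))
          (fun i => x i) := (hT.lintegral_comp hmeas)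
  have hpol := (volume : Measure (Esp m)).measurePreserving_homeomorphUnitSphereProd
  have hdim : Module.finrank ℝ (Esp m) = m := finrank_euclideanSpace_fin
  have e2 : ∀ F : Esp m → ℝ≥0∞, ∫⁻ x, F x
      = ∫⁻ x : ({(0 : Esp m)}ᶜ : Set (Esp m)), F x ∂((volume : Measure (Esp m)).comap (↑)) := by
    intro F
    rw [lintegral_subtype_comap (measurableSet_singleton _).compl, restrict_compl_singleton]
  rw [e1, e2]
  have key : ∀ x : ({(0 : (Esp m))}ᶜ : Set (Esp m)), (nrm ⁻¹' A ∩ dirn ⁻¹' D).indicator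
      (fun y => ∏ i, gaussianPDF 0 1 (y i)) (fun i => (x : (Esp m)) i)
      = (fun p : sphere (0 : (Esp m)) 1 × Set.Ioi (0 : ℝ) =>
          (sphereCoord ⁻¹' D).indicator (1 : sphere (0 : (Esp m)) 1 → ℝ≥0∞) p.1
            * A.indicator (radial m) p.2)
        (homeomorphUnitSphereProd (Esp m) x) := by
    intro x
    have hn : nrm (fun i => (x : (Esp m)) i) = ‖(x : (Esp m))‖ := by
      simp [nrm, EuclideanSpace.norm_eq, Real.norm_eq_abs, sq_abs]
    have hd : dirn (fun i => (x : (Esp m)) i) = sphereCoord (homeomorphUnitSphereProd (Esp m) x).1 := by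
      funext i
      simp only [dirn, hn, sphereCoord, homeomorphUnitSphereProd_apply_fst_coe, div_eq_inv_mul]
      rfl
    have hp : ∏ i, gaussianPDF 0 1 ((x : (Esp m)) i) = radial m ‖(x : (Esp m))‖ := prod_pdf _
    simp only [homeomorphUnitSphereProd_apply_snd_coe]
    by_cases h1 : ‖(x : (Esp m))‖ ∈ A <;>
      by_cases h2 : (homeomorphUnitSphereProd (Esp m) x).1 ∈ sphereCoord ⁻¹' D <;>
      simp_all [Set.indicator]
  simp only [key]
  refine (hpol.lintegral_comp_emb (Homeomorph.measurableEmbedding _)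
    (fun p : sphere (0 : Esp m) 1 × Set.Ioi (0 : ℝ) =>
      (sphereCoord ⁻¹' D).indicator (1 : sphere (0 : Esp m) 1 → ℝ≥0∞) p.1
        * A.indicator (radial m) p.2)).trans ?_
  rw [hdim,
    lintegral_prod_mul (g := fun r : Set.Ioi (0 : ℝ) => A.indicator (radial m) r)
      ((measurable_one.indicator (measurable_sphereCoord hD)).aemeasurable)
      (((Measurable.indicator (by unfold radial; fun_prop) hA).comp
        measurable_subtype_coe).aemeasurable),
    lintegral_indicator_one (measurable_sphereCoord hD), mul_comm]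

lemma unitLaw_eq {m : ℕ} (hm : 0 < m) : unitLaw m = (surface m).map sphereCoord := by
  haveI : NeZero m := ⟨hm.ne'⟩
  have h1 := rect hm MeasurableSet.univ MeasurableSet.univ
  simp only [Set.preimage_univ, Set.inter_univ, measure_univ] at h1
  refine Measure.ext fun D hD => ?_
  have h2 := rect hm MeasurableSet.univ hD
  simp only [Set.preimage_univ, Set.univ_inter] at h2
  rw [unitLaw, Measure.map_apply measurable_dirn hD, h2, Measure.map_apply measurable_sphereCoord hD,
    surface, Measure.smul_apply, smul_eq_mul]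
  congr 1
  exact ENNReal.eq_inv_of_mul_eq_one_left h1.symm

lemma mp_polar (m : ℕ) :
    MeasurePreserving (fun G => (nrm G, dirn G)) (gauss (Fin m))
      (((gauss (Fin m)).map nrm).prod (unitLaw m)) := by
  haveI : IsProbabilityMeasure ((gauss (Fin m)).map nrm) :=
    Measure.isProbabilityMeasure_map measurable_nrm.aemeasurable
  refine ⟨measurable_nrm.prodMk measurable_dirn, (Measure.prod_eq fun A D hA hD => ?_).symm⟩
  rw [Measure.map_apply (measurable_nrm.prodMk measurable_dirn) (hA.prod hD), unitLaw,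
    Measure.map_apply measurable_nrm hA, Measure.map_apply measurable_dirn hD, Set.mk_preimage_prod]
  rcases Nat.eq_zero_or_pos m with h | h
  · subst h
    have e : ∀ S : Set (Fin 0 → ℝ), gauss (Fin 0) S = S.indicator 1 default := by
      intro S
      rw [gauss, Measure.pi_of_empty, Measure.dirac_apply]
      congr 1
      exact funext fun i => i.elim0
    simp only [e]
    generalize (default : Fin 0 → ℝ) = d
    by_cases h1 : d ∈ nrm ⁻¹' A <;> by_cases h2 : d ∈ dirn ⁻¹' D <;>
      simp_all [Set.indicator]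
  haveI : NeZero m := ⟨h.ne'⟩
  have h1 := rect h MeasurableSet.univ MeasurableSet.univ
  have h2 := rect h MeasurableSet.univ hD
  have h3 := rect h hA MeasurableSet.univ
  simp only [Set.preimage_univ, Set.inter_univ, Set.univ_inter, measure_univ] at h1 h2 h3
  rw [rect h hA hD, h2, h3]
  set I := ∫⁻ r : Set.Ioi (0 : ℝ), A.indicator (radial m) r ∂(Measure.volumeIoiPow (m - 1))
  set J := ∫⁻ r : Set.Ioi (0 : ℝ), Set.univ.indicator (radial m) r ∂(Measure.volumeIoiPow (m - 1))
  calc I * _ = I * (J * (volume : Measure (EuclideanSpace ℝ (Fin m))).toSphere Set.univ)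
        * (volume : Measure (EuclideanSpace ℝ (Fin m))).toSphere (sphereCoord ⁻¹' D) := by
        rw [← h1, mul_one]
    _ = _ := by ring

lemma memLp_sq : MemLp (fun x : ℝ => x ^ 2) 2 (gaussianReal 0 1) :=
  (memLp_two_iff_integrable_sq (by fun_prop)).2
    ((P150.Slow.integrable_pow_gauss 4).congr (Filter.Eventually.of_forall fun x => by simp; ring))

lemma integral_sq_gauss : ∫ x, x ^ 2 ∂gaussianReal 0 1 = 1 := by
  rw [P150.Slow.moment_succ 0]; simp

/-- The squared length of a Gaussian vector is concentrated at its mean. -/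
lemma integral_abs_nrm_sq (m : ℕ) :
    Integrable (fun G => |nrm G ^ 2 - m|) (gauss (Fin m)) ∧
    ∫ G, |nrm G ^ 2 - m| ∂(gauss (Fin m)) ≤ Real.sqrt (2 * m) := by
  have hX : ∀ i : Fin m, MemLp (fun G : Fin m → ℝ => G i ^ 2) 2 (gauss (Fin m)) := fun i =>
    memLp_sq.comp_measurePreserving (measurePreserving_eval _ i)
  have hS : MemLp (fun G : Fin m → ℝ => ∑ i, G i ^ 2) 2 (gauss (Fin m)) :=
    memLp_finsetSum _ fun i _ => hX i
  have hmean : ∫ G, (∑ i, G i ^ 2) ∂(gauss (Fin m)) = m := by
    rw [integral_finsetSum _ fun i _ => (hX i).integrable one_le_two]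
    have : ∀ i : Fin m, ∫ G, G i ^ 2 ∂(gauss (Fin m)) = 1 := fun i => by
      rw [gauss, integral_comp_eval (μ := fun _ : Fin m => gaussianReal 0 1)
        (f := fun x => x ^ 2) (by fun_prop), integral_sq_gauss]
    simp [this]
  have hvar : variance (fun G : Fin m → ℝ => ∑ i, G i ^ 2) (gauss (Fin m)) = 2 * m := by
    have e : (fun G : Fin m → ℝ => ∑ i, G i ^ 2)
        = ∑ i, (fun G : Fin m → ℝ => G i ^ 2) := by funext G; simp
    rw [e, gauss, variance_sum_pi (X := fun _ (x : ℝ) => x ^ 2) fun _ => memLp_sq,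
      Finset.sum_const, Finset.card_univ, Fintype.card_fin, variance_eq_sub memLp_sq,
      integral_sq_gauss]
    have : ∫ x, ((fun x : ℝ => x ^ 2) ^ 2) x ∂gaussianReal 0 1 = 3 := by
      have h4 := P150.Slow.moment_succ 2
      rw [integral_sq_gauss] at h4
      rw [show (3 : ℝ) = ((2 : ℕ) + 1 : ℝ) * 1 by norm_num, ← h4]
      exact integral_congr_ae (Filter.Eventually.of_forall fun x => by simp; ring)
    rw [this]
    simp
    ring
  have hY : MemLp (fun G => |nrm G ^ 2 - m|) 2 (gauss (Fin m)) := by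
    simp only [nrm_sq]
    exact (hS.sub (memLp_const (m : ℝ))).abs
  refine ⟨hY.integrable one_le_two, Real.le_sqrt_of_sq_le ?_⟩
  have h1 := variance_nonneg (fun G => |nrm G ^ 2 - m|) (gauss (Fin m))
  rw [variance_eq_sub hY] at h1
  have h2 : ∫ G, ((fun G => |nrm G ^ 2 - m|) ^ 2) G ∂(gauss (Fin m)) = 2 * m := by
    rw [← hvar, variance_eq_integral hS.1.aemeasurable, hmean]
    exact integral_congr_ae (Filter.Eventually.of_forall fun G => by simp [nrm_sq, sq_abs])
  rw [h2] at h1
  linarith

end Vale.Agent.P157
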