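import Vale.Agent.P157.Blocks

/-!
Existence of the limit of the pressure on the Ising cube.
-/

namespace Vale.Agent.P157

open MeasureTheory ProbabilityTheory Real Filter Topology
open scoped ENNReal

/-- A fair sign. -/
noncomputable def fairSign : Measure ℝ :=
  (2⁻¹ : ℝ≥0∞) • Measure.dirac (1 : ℝ) + (2⁻¹ : ℝ≥0∞) • Measure.dirac (-1 : ℝ)

instance : IsProbabilityMeasure fairSign := by
  constructor
  simp [fairSign, ENNReal.inv_two_add_inv_two]

/-- The uniform probability measure on `{-1,1}^ι`. -/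
noncomputable def isingMeasure (ι : Type*) [Fintype ι] : Measure (ι → ℝ) :=
  Measure.pi fun _ => fairSign

instance (ι : Type*) [Fintype ι] : IsProbabilityMeasure (isingMeasure ι) := by
  unfold isingMeasure; infer_instance

/-- `E p_N(f)` at pattern density `α` for the configuration law `μ`. -/
noncomputable def pressure (α : ℝ) (f : ℝ → ℝ) (N : ℕ) (μ : Measure (Fin N → ℝ)) : ℝ :=
  (1 / (N : ℝ)) * ∫ G : Fin ⌊α * N⌋₊ → Fin N → ℝ,
    Real.log (∫ x, Real.exp (∑ m, f ((∑ i, G m i * x i) / Real.sqrt N)) ∂μ)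
    ∂(Measure.pi fun _ => Measure.pi fun _ => gaussianReal 0 1)

section transport

variable {Φ : Pot}

lemma elogZ_map {X X' : Type} [MeasurableSpace X] [MeasurableSpace X'] {ι ι' : Type}
    [Fintype ι] [Fintype ι'] (e : ι' ≃ ι) (w : Measure X) [IsFiniteMeasure w] {T : X → X'}
    (hT : Measurable T) {M : ℕ} {z' : X' → ι' → ℝ} (hz' : Measurable z') :
    elogZ Φ (w.map T) (fun _ : Fin M => z')
      = elogZ Φ w (fun _ : Fin M => fun x i => z' (T x) (e.symm i)) := by
  have hm : MeasurePreserving (fun (G : Fin M → ι → ℝ) m (i : ι') => G m (e i))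
      (pgauss M ι) (pgauss M ι') :=
    measurePreserving_pi _ _ fun _ => mp_comp (gaussianReal 0 1) e.injective
  rw [elogZ, elogZ, ← integral_comp_mp hm (measurable_logZ (w.map T) fun _ => hz')]
  refine integral_congr_ae (Eventually.of_forall fun G => ?_)
  simp only [logZ]
  rw [integral_map hT.aemeasurable
    (measurable_wprod_right (fun _ => hz') _).aestronglyMeasurable]
  congr 1
  refine integral_congr_ae (Eventually.of_forall fun x => ?_)
  simp only [wprod, field]
  refine Finset.prod_congr rfl fun m _ => ?_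
  congr 1
  rw [← Equiv.sum_comp e]
  simp

lemma pressure_eq (α : ℝ) (N : ℕ) (μ : Measure (Fin N → ℝ)) :
    pressure α (fun t => Real.log (Φ.fn t)) N μ
      = elogZ Φ μ (fun _ : Fin ⌊α * N⌋₊ => fun x i => x i / Real.sqrt N) / N := by
  rw [pressure, one_div, inv_mul_eq_div]
  congr 1
  refine integral_congr_ae (Eventually.of_forall fun G => ?_)
  simp only [logZ]
  congr 1
  refine integral_congr_ae (Eventually.of_forall fun x => ?_)
  simp only [wprod, field]
  rw [Real.exp_sum]
  refine Finset.prod_congr rfl fun m _ => ?_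
  have e : (∑ i, G m i * x i) / Real.sqrt N = ∑ i, G m i * (x i / Real.sqrt N) := by
    rw [Finset.sum_div]
    exact Finset.sum_congr rfl fun i _ => by ring
  rw [e]
  exact Real.exp_log (Φ.pos _)

lemma elogZ_abs_le {X : Type} [MeasurableSpace X] {ι : Type}
    [Fintype ι] (w : Measure X) [IsProbabilityMeasure w] {M : ℕ} {z : Fin M → X → ι → ℝ}
    (hz : ∀ m, Measurable (z m)) : |elogZ Φ w z| ≤ M * Φ.bd := by
  have := norm_integral_le_of_norm_le_const (μ := pgauss M ι) (f := logZ Φ w z)
    (C := M * Φ.bd) (Eventually.of_forall fun G => ?_)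
  · simpa [elogZ] using this
  obtain ⟨l, u⟩ := intWprod_mem (Φ := Φ) w hz G
  simp only [probReal_univ, mul_one] at l u
  have hlo : 0 < Φ.lo := Φ.lo_pos
  have L := Real.log_le_log (pow_pos hlo M) l
  have U := Real.log_le_log ((pow_pos hlo M).trans_le l) u
  rw [Real.log_pow] at L U
  have h1 : |Real.log Φ.lo| ≤ Φ.bd := le_max_left _ _
  have h2 : |Real.log Φ.hi| ≤ Φ.bd := le_max_right _ _
  rw [Real.norm_eq_abs, abs_le]
  have hM : (0 : ℝ) ≤ M := Nat.cast_nonneg M
  exact ⟨by nlinarith [(abs_le.1 h1).1, L, show logZ Φ w z G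
      = Real.log (∫ x, wprod Φ z G x ∂w) from rfl],
    by nlinarith [(abs_le.1 h2).2, U, show logZ Φ w z G
      = Real.log (∫ x, wprod Φ z G x ∂w) from rfl]⟩

end transport

/-- Sequences that are almost superadditive converge. -/
lemma exists_limit {P e : ℕ → ℝ} {B : ℝ} (hB : ∀ N, |P N| ≤ B) (he : Tendsto e atTop (𝓝 0))
    (h : ∀ n, 0 < n → ∀ δ > 0, ∀ᶠ N in atTop, P n - e n - δ ≤ P N) :
    ∃ L, Tendsto P atTop (𝓝 L) := by
  have hb : Bornology.IsBounded (Set.range P) :=
    (Metric.isBounded_Icc (-B) B).subset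
      (Set.range_subset_iff.2 fun N => abs_le.1 (hB N))
  have hu : IsBoundedUnder (· ≤ ·) atTop P :=
    ⟨B, eventually_map.2 (Eventually.of_forall fun N => (abs_le.1 (hB N)).2)⟩
  have hl : IsBoundedUnder (· ≥ ·) atTop P :=
    ⟨-B, eventually_map.2 (Eventually.of_forall fun N => (abs_le.1 (hB N)).1)⟩
  refine ⟨limsup P atTop, tendsto_order.2 ⟨fun b hb => ?_, fun b hb => ?_⟩⟩
  · set δ := limsup P atTop - b
    have hδ : 0 < δ := by simp only [δ]; linarith
    have hf : ∃ᶠ n in atTop, limsup P atTop - δ / 4 < P n :=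
      frequently_lt_of_lt_limsup hl.isCoboundedUnder_le
        (show limsup P atTop - δ / 4 < limsup P atTop by linarith)
    obtain ⟨n, hn1, hn2, hn3⟩ := (hf.and_eventually
      ((he.eventually (eventually_lt_nhds (show (0:ℝ) < δ / 4 by linarith))).and
        (eventually_gt_atTop 0))).exists
    filter_upwards [h n hn3 (δ / 4) (by linarith)] with N hN
    simp only [δ] at *
    linarith
  · exact eventually_lt_of_limsup_lt hb hu

/-- Eventual form of the block estimate. -/
lemma eventually_ge {P : ℕ → ℝ} {α C : ℝ} (hα : 0 ≤ α) (hC : 0 ≤ C) {n : ℕ} (hn : 0 < n)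
    {E : ℕ → ℝ} {e : ℝ} (hE : Tendsto E atTop (𝓝 e))
    (h : ∀ᶠ N : ℕ in atTop, ((N / n : ℕ) : ℝ) * n * P n
      - C * (Real.sqrt (α * N * ((N / n : ℕ) + 1)) + 2 * (N / n : ℕ) + α * n + N * E N)
        ≤ N * P N) :
    ∀ δ > 0, ∀ᶠ N in atTop, P n - C * (Real.sqrt (α / n) + 2 / n + e) - δ ≤ P N := by
  intro δ hδ
  have h0 : Tendsto (fun N : ℕ => (N : ℝ)⁻¹) atTop (𝓝 0) := tendsto_inv_atTop_nhds_zero_nat
  set R : ℕ → ℝ := fun N => |P n| * n * (N : ℝ)⁻¹
    + C * (Real.sqrt (α * ((n : ℝ)⁻¹ + (N : ℝ)⁻¹)) + 2 / n + α * n * (N : ℝ)⁻¹ + E N) with hRdef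
  have hR : Tendsto R atTop (𝓝 (|P n| * n * 0
      + C * (Real.sqrt (α * ((n : ℝ)⁻¹ + 0)) + 2 / n + α * n * 0 + e))) := by
    refine (h0.const_mul _).add (((((Real.continuous_sqrt.tendsto _).comp
      ((h0.const_add _).const_mul α)).add tendsto_const_nhds).add (h0.const_mul _)).add hE
      |>.const_mul C)
  simp only [mul_zero, add_zero, zero_add] at hR
  rw [← div_eq_mul_inv] at hR
  filter_upwards [h, hR.eventually (eventually_lt_nhds (lt_add_of_pos_right _ hδ)),
    eventually_gt_atTop 0] with N hN hR' hN0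
  set k := N / n
  have hN' : (0 : ℝ) < N := by exact_mod_cast hN0
  have hn' : (0 : ℝ) < n := by exact_mod_cast hn
  have hk1 : (k : ℝ) * n ≤ N := by exact_mod_cast Nat.div_mul_le_self N n
  have hk2 : (N : ℝ) < (k : ℝ) * n + n := by
    have hd : N % n + k * n = N := by rw [mul_comm]; exact Nat.mod_add_div N n
    have hl := Nat.mod_lt N hn
    exact_mod_cast (by linarith : N < k * n + n)
  have hkn : (k : ℝ) ≤ N / n := by rwa [le_div_iff₀ hn']
  have hp : (N : ℝ) * P n - n * |P n| ≤ (k : ℝ) * n * P n := by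
    rcases le_or_gt 0 (P n) with hP | hP
    · rw [abs_of_nonneg hP]; nlinarith
    · rw [abs_of_neg hP]; nlinarith
  have hs : Real.sqrt (α * N * (k + 1)) ≤ N * Real.sqrt (α * ((n : ℝ)⁻¹ + (N : ℝ)⁻¹)) := by
    rw [← Real.sqrt_sq hN'.le, ← Real.sqrt_mul (sq_nonneg _)]
    refine Real.sqrt_le_sqrt ?_
    rw [Real.sqrt_sq hN'.le,
      show (N : ℝ) ^ 2 * (α * ((n : ℝ)⁻¹ + (N : ℝ)⁻¹)) = α * N * (N / n + 1) by field_simp]
    exact mul_le_mul_of_nonneg_left (by linarith) (by positivity)
  have hrn : (N : ℝ) * R N = |P n| * n + C * (N * Real.sqrt (α * ((n : ℝ)⁻¹ + (N : ℝ)⁻¹))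
      + 2 * (N / n) + α * n + N * E N) := by
    simp only [R]
    field_simp
  have hC' := mul_le_mul_of_nonneg_left (show Real.sqrt (α * N * (k + 1)) + 2 * k + α * n + N * E N
      ≤ N * Real.sqrt (α * ((n : ℝ)⁻¹ + (N : ℝ)⁻¹)) + 2 * (N / n) + α * n + N * E N by linarith) hC
  have : (N : ℝ) * (P n - R N) ≤ N * P N := by nlinarith
  have := le_of_mul_le_mul_left this hN'
  linarith

section blocks

variable {Φ : Pot}

/-- Sizes of the blocks: `k` blocks of size `n` and a remainder of size `r`. -/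
def bsize (k n r : ℕ) : Option (Fin k) → ℕ
  | none => r
  | some _ => n

lemma card_blocks (k n r : ℕ) :
    Fintype.card (Σ j : Option (Fin k), Fin (bsize k n r j)) = k * n + r := by
  simp only [Fintype.card_sigma, Fintype.card_fin]
  rw [Fintype.sum_option]
  simp [bsize, add_comm]

/-- The block estimate for a given vector of weights. -/
lemma blocks_bound {α : ℝ} (hα : 0 ≤ α) {k n r N : ℕ}
    (hN : N = k * n + r) (p : ∀ j : Option (Fin k), Measure (Fin (bsize k n r j) → ℝ))
    [∀ j, IsProbabilityMeasure (p j)] {lam : Option (Fin k) → ℝ} (h0 : ∀ j, 0 ≤ lam j)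
    (h1 : ∑ j, lam j = 1)
    (hun : UnitBlk Sigma.fst lam (flat (B := fun j => Fin (bsize k n r j))) (Measure.pi p)) :
    (∑ i : Fin k, blockQ Φ (p (some i)) ⌊α * n⌋₊)
      - Φ.bd * (Real.sqrt (α * N * (k + 1)) + 2 * k + α * r
          + α * N * ∑ j, |lam j - (bsize k n r j : ℝ) / N|)
      ≤ elogZ Φ (Measure.pi p)
          (fun _ : Fin ⌊α * N⌋₊ => mixC Sigma.fst lam
            (flat (B := fun j => Fin (bsize k n r j)))) := by
  set M := ⌊α * N⌋₊
  have hM : (M : ℝ) ≤ α * N := Nat.floor_le (by positivity)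
  have hM' : α * N < M + 1 := Nat.lt_floor_add_one _
  let μ : Option (Fin k) → ℕ := fun j => j.elim 0 fun _ => ⌊α * n⌋₊
  refine le_trans ?_ (blocks_le p h0 h1 hun M μ)
  rw [Finset.sum_sub_distrib, ← Finset.mul_sum, Finset.sum_add_distrib]
  have e1 : ∑ j, blockQ Φ (p j) (μ j) = ∑ i : Fin k, blockQ Φ (p (some i)) ⌊α * n⌋₊ := by
    simp [Fintype.sum_option, μ, blockQ_zero]
  have e2 : ∑ j, Real.sqrt (M * lam j) ≤ Real.sqrt (α * N * (k + 1)) := by
    have := Real.sum_sqrt_mul_sqrt_le (s := Finset.univ) (f := fun j => (M : ℝ) * lam j)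
      (g := fun _ : Option (Fin k) => (1 : ℝ)) (fun j => mul_nonneg (Nat.cast_nonneg M) (h0 j))
      (fun _ => zero_le_one)
    simp only [Real.sqrt_one, mul_one, ← Finset.mul_sum, h1, Finset.sum_const, Finset.card_univ,
      Fintype.card_option, Fintype.card_fin, nsmul_eq_mul] at this
    push_cast at this
    refine this.trans ?_
    rw [← Real.sqrt_mul (Nat.cast_nonneg M)]
    exact Real.sqrt_le_sqrt (mul_le_mul_of_nonneg_right hM (by positivity))
  have e3 : ∑ j, |(M : ℝ) * lam j - μ j|
      ≤ 2 * k + α * r + α * N * ∑ j, |lam j - (bsize k n r j : ℝ) / N| := by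
    have hb : ∀ j, |(M : ℝ) * lam j - μ j|
        ≤ α * N * |lam j - (bsize k n r j : ℝ) / N| + |(M : ℝ) * ((bsize k n r j : ℝ) / N) - μ j| := by
      intro j
      calc _ = |(M : ℝ) * (lam j - (bsize k n r j : ℝ) / N)
              + ((M : ℝ) * ((bsize k n r j : ℝ) / N) - μ j)| := by ring_nf
        _ ≤ _ := by
            refine (abs_add_le _ _).trans (add_le_add ?_ le_rfl)
            rw [abs_mul, Nat.abs_cast]
            exact mul_le_mul_of_nonneg_right hM (abs_nonneg _)
    have hnone : |(M : ℝ) * ((r : ℝ) / N) - ((0 : ℕ) : ℝ)| ≤ α * r := by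
      rw [Nat.cast_zero, sub_zero, abs_of_nonneg (by positivity)]
      rcases Nat.eq_zero_or_pos N with h | h
      · simp [h]; positivity
      · have : (0 : ℝ) < N := by exact_mod_cast h
        calc (M : ℝ) * ((r : ℝ) / N) ≤ α * N * ((r : ℝ) / N) :=
              mul_le_mul_of_nonneg_right hM (by positivity)
          _ = _ := by field_simp
    have hsome : ∀ i : Fin k, |(M : ℝ) * ((n : ℝ) / N) - (⌊α * n⌋₊ : ℝ)| ≤ 2 := by
      intro i
      have hf1 : (⌊α * n⌋₊ : ℝ) ≤ α * n := Nat.floor_le (by positivity)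
      have hf2 := Nat.lt_floor_add_one (α * n)
      rcases Nat.eq_zero_or_pos n with h | h
      · subst h; simp
      have hNn : n ≤ N := by
        have : 1 ≤ k := i.pos
        nlinarith
      have hN0 : (0 : ℝ) < N := by exact_mod_cast (lt_of_lt_of_le h hNn)
      have hr0 : 0 ≤ (n : ℝ) / N := by positivity
      have hr1 : (n : ℝ) / N ≤ 1 := (div_le_one hN0).2 (by exact_mod_cast hNn)
      have he : α * N * ((n : ℝ) / N) = α * n := by field_simp
      have u1 := mul_le_mul_of_nonneg_right hM hr0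
      have u2 := mul_le_mul_of_nonneg_right hM'.le hr0
      rw [abs_le]
      constructor <;> linarith [add_mul (M : ℝ) 1 ((n : ℝ) / N)]
    calc _ ≤ ∑ j, (α * N * |lam j - (bsize k n r j : ℝ) / N|
          + |(M : ℝ) * ((bsize k n r j : ℝ) / N) - μ j|) := Finset.sum_le_sum fun j _ => hb j
      _ ≤ _ := by
          rw [Finset.sum_add_distrib, ← Finset.mul_sum,
            Fintype.sum_option (fun j => |(M : ℝ) * ((bsize k n r j : ℝ) / N) - μ j|)]
          simp only [bsize, μ, Option.elim]
          have := Finset.sum_le_sum fun i (_ : i ∈ (Finset.univ : Finset (Fin k))) => hsome i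
          simp only [Finset.sum_const, Finset.card_univ, Fintype.card_fin, nsmul_eq_mul] at this ⊢
          linarith
  rw [e1]
  nlinarith [Φ.bd_nonneg]

end blocks

/-- The unit-length rescaling of the Ising measure. -/
noncomputable def unitIsing (n : ℕ) : Measure (Fin n → ℝ) :=
  (isingMeasure (Fin n)).map fun x i => x i / Real.sqrt n

instance (n : ℕ) : IsProbabilityMeasure (unitIsing n) :=
  Measure.isProbabilityMeasure_map
    (measurable_pi_lambda _ fun i => (measurable_pi_apply i).div_const _).aemeasurable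

lemma isingMeasure_sigma {K : Type} [Fintype K] {B : K → Type} [∀ j, Fintype (B j)] :
    (Measure.pi fun j => isingMeasure (B j)).map (flat (B := B)) = isingMeasure (Σ j, B j) := by
  refine (Measure.pi_eq fun s hs => ?_).symm
  rw [Measure.map_apply measurable_flat (MeasurableSet.univ_pi hs)]
  have : flat (B := B) ⁻¹' Set.univ.pi s
      = Set.univ.pi fun j => Set.univ.pi fun i => s ⟨j, i⟩ := by
    ext x
    simp [flat, Sigma.forall]
  rw [this, Measure.pi_pi, ← Finset.univ_sigma_univ, Finset.prod_sigma]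
  exact Finset.prod_congr rfl fun j _ => by rw [isingMeasure, Measure.pi_pi]

variable {Φ : Pot}

lemma unitBlk_pi {K : Type} [Fintype K] [DecidableEq K] {B : K → Type} [∀ j, Fintype (B j)]
    (p : ∀ j, Measure (B j → ℝ)) [∀ j, IsProbabilityMeasure (p j)] {lam : K → ℝ}
    (h : ∀ j, lam j ≠ 0 → ∀ᵐ u ∂(p j), ∑ i, u i ^ 2 = 1) :
    UnitBlk Sigma.fst lam (flat (B := B)) (Measure.pi p) := by
  refine ae_all_iff.2 fun j => ?_
  by_cases hj : lam j = 0
  · exact Eventually.of_forall fun x hx => absurd hj hx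
  filter_upwards [(measurePreserving_eval p j).quasiMeasurePreserving.ae (h j hj)] with x hx _
  rw [← Finset.univ_sigma_univ, Finset.sum_sigma, Finset.sum_eq_single j]
  · simpa [blkC, flat] using hx
  · intro i _ hi
    simp [blkC, hi]
  · simp

lemma unitIsing_norm {n : ℕ} (hn : n ≠ 0) : ∀ᵐ u ∂(unitIsing n), ∑ i, u i ^ 2 = 1 := by
  rw [unitIsing, ae_map_iff (measurable_pi_lambda _ fun i =>
    (measurable_pi_apply i).div_const _).aemeasurable
    (measurableSet_eq_fun (by fun_prop) measurable_const)]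
  have h1 : ∀ᵐ t ∂fairSign, t ^ 2 = 1 := by
    rw [fairSign, ae_add_measure_iff]
    constructor <;> refine Measure.ae_smul_measure ?_ _ <;> rw [ae_dirac_eq] <;> simp
  have h2 : ∀ᵐ x ∂(isingMeasure (Fin n)), ∀ i, x i ^ 2 = 1 := ae_all_iff.2 fun i =>
    (measurePreserving_eval (fun _ : Fin n => fairSign) i).quasiMeasurePreserving.ae h1
  filter_upwards [h2] with x hx
  simp only [div_pow, Real.sq_sqrt (Nat.cast_nonneg n), hx, Finset.sum_const, Finset.card_univ,
    Fintype.card_fin, nsmul_eq_mul]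
  field_simp

lemma unitIsing_block (n : ℕ) (M : ℕ) :
    blockQ Φ (unitIsing n) M
      = elogZ Φ (isingMeasure (Fin n)) (fun _ : Fin M => fun x i => x i / Real.sqrt n) := by
  rw [blockQ, unitIsing, elogZ_map (Equiv.refl _) _ (by fun_prop) measurable_id]
  rfl

theorem ising_limit {α : ℝ} (hα : 0 < α) :
    ∃ L, Tendsto (fun N => pressure α (fun t => Real.log (Φ.fn t)) N
      (isingMeasure (Fin N))) atTop (𝓝 L) := by
  set P := fun N => pressure α (fun t => Real.log (Φ.fn t)) N
      (isingMeasure (Fin N))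
  have hC := Φ.bd_nonneg
  refine exists_limit (B := α * Φ.bd)
    (e := fun n => Φ.bd * (Real.sqrt (α / n) + 2 / n + 0)) (fun N => ?_) ?_ ?_
  · simp only [P, pressure_eq , abs_div, Nat.abs_cast]
    rcases Nat.eq_zero_or_pos N with h | h
    · simp [h]; positivity
    rw [div_le_iff₀ (by exact_mod_cast h)]
    refine (elogZ_abs_le _ fun _ => by fun_prop).trans ?_
    nlinarith [Nat.floor_le (show (0:ℝ) ≤ α * N by positivity)]
  · have h1 := tendsto_const_div_atTop_nhds_zero_nat α
    have := (((Real.continuous_sqrt.tendsto _).comp h1).add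
      (tendsto_const_div_atTop_nhds_zero_nat 2)).add_const 0 |>.const_mul (Φ.bd)
    simpa using this
  intro n hn
  refine eventually_ge hα.le hC hn (E := fun _ => 0) tendsto_const_nhds ?_
  filter_upwards [eventually_gt_atTop 0] with N hN0
  set k := N / n
  set r := N % n
  have hN : N = k * n + r := by rw [mul_comm]; exact (Nat.div_add_mod N n).symm
  have hN' : (0 : ℝ) < N := by exact_mod_cast hN0
  let p : ∀ j : Option (Fin k), Measure (Fin (bsize k n r j) → ℝ) := fun j => unitIsing _
  let lam : Option (Fin k) → ℝ := fun j => (bsize k n r j : ℝ) / N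
  have h1 : ∑ j, lam j = 1 := by
    simp only [lam, ← Finset.sum_div, div_eq_one_iff_eq hN'.ne', ← Nat.cast_sum, Nat.cast_inj]
    simp [Fintype.sum_option, bsize, hN, add_comm]
  have hun : UnitBlk Sigma.fst lam (flat (B := fun j => Fin (bsize k n r j))) (Measure.pi p) :=
    unitBlk_pi p fun j hj => unitIsing_norm fun h => hj (by simp [lam, h])
  have H := blocks_bound (Φ := Φ) hα.le hN p (lam := lam) (fun j => by positivity) h1 hun
  simp only [lam, sub_self, abs_zero, Finset.sum_const_zero, mul_zero, add_zero] at H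
  have eQ : ∀ i : Fin k, blockQ Φ (p (some i)) ⌊α * n⌋₊ = n * P n := by
    intro i
    have hn' : (n : ℝ) ≠ 0 := by positivity
    simp only [P, pressure_eq , mul_div_cancel₀ _ hn']
    exact unitIsing_block n _
  simp only [eQ, Finset.sum_const, Finset.card_univ, Fintype.card_fin, nsmul_eq_mul] at H
  let e : (Σ j : Option (Fin k), Fin (bsize k n r j)) ≃ Fin N :=
    Fintype.equivFinOfCardEq (by rw [card_blocks]; exact hN.symm)
  let T : (∀ j : Option (Fin k), Fin (bsize k n r j) → ℝ) →
      (∀ j : Option (Fin k), Fin (bsize k n r j) → ℝ) :=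
    fun x j i => x j i / Real.sqrt (bsize k n r j)
  let T' : (∀ j : Option (Fin k), Fin (bsize k n r j) → ℝ) → Fin N → ℝ :=
    fun x i => flat (B := fun j => Fin (bsize k n r j)) x (e.symm i)
  have hT' : Measurable T' :=
    measurable_pi_lambda _ fun i => (measurable_pi_apply (e.symm i)).comp measurable_flat
  have hpi : (Measure.pi fun j => isingMeasure (Fin (bsize k n r j))).map T = Measure.pi p :=
    Measure.pi_map_pi (f := fun j (x : Fin (bsize k n r j) → ℝ) i =>
      x i / Real.sqrt (bsize k n r j)) (fun j =>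
      (measurable_pi_lambda _ fun i => (measurable_pi_apply i).div_const _).aemeasurable)
  have hmu : (Measure.pi fun j => isingMeasure (Fin (bsize k n r j))).map T'
      = isingMeasure (Fin N) := by
    have hm := (mp_comp fairSign (e := e.symm) e.symm.injective).map_eq
    rw [show T' = (fun (G : (Σ j, Fin (bsize k n r j)) → ℝ) (i : Fin N) => G (e.symm i))
      ∘ flat (B := fun j => Fin (bsize k n r j)) from rfl,
      ← Measure.map_map (by fun_prop) measurable_flat, isingMeasure_sigma]
    exact hm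
  have key : elogZ Φ (Measure.pi p) (fun _ : Fin ⌊α * N⌋₊ => mixC Sigma.fst
      (fun j => (bsize k n r j : ℝ) / N) (flat (B := fun j => Fin (bsize k n r j))))
      = N * P N := by
    simp only [P, pressure_eq , mul_div_cancel₀ _ hN'.ne']
    rw [← hpi, ← hmu, elogZ_map (Equiv.refl _) _ (by fun_prop) (measurable_mixC _ _ measurable_flat),
      elogZ_map e.symm _ hT' (by fun_prop)]
    congr 1
    funext _ x i
    have hs : Real.sqrt (bsize k n r i.1) ≠ 0 := by
      rw [Real.sqrt_ne_zero']
      exact_mod_cast Fin.pos i.2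
    simp only [mixC, flat, T, T', Equiv.symm_symm, Equiv.refl_symm, Equiv.refl_apply,
      Equiv.symm_apply_apply, Real.sqrt_div (Nat.cast_nonneg _)]
    field_simp
    exact (congrArg (fun q : Σ j, Fin (bsize k n r j) => x q.1 q.2) (e.symm_apply_apply i)).symm
  rw [key] at H
  have hr : α * r ≤ α * n :=
    mul_le_mul_of_nonneg_left (by exact_mod_cast (Nat.mod_lt N hn).le) hα.le
  nlinarith [mul_le_mul_of_nonneg_left hr hC]

end Vale.Agent.P157
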