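import Mathlib

/-!
One pattern of a perceptron: convexity of the Gaussian-averaged moments in the overlaps.
-/

namespace Vale.Agent.P157

open MeasureTheory ProbabilityTheory Real
open scoped ENNReal

/-- Standard Gaussian vector indexed by `ι`. -/
noncomputable def gauss (ι : Type*) [Fintype ι] : Measure (ι → ℝ) :=
  Measure.pi (fun _ : ι => gaussianReal 0 1)

instance (ι : Type*) [Fintype ι] : IsProbabilityMeasure (gauss ι) := by
  unfold gauss; infer_instance

/-- Cosine transform of a measure. -/
noncomputable def cosT (ν : Measure ℝ) (t : ℝ) : ℝ := ∫ ξ, Real.cos (ξ * t) ∂ν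

section basic

variable (ν : Measure ℝ) [IsFiniteMeasure ν]

lemma continuous_cosT : Continuous (cosT ν) := by
  refine continuous_of_dominated (fun t => by fun_prop) (bound := fun _ => (1:ℝ)) ?_
    (integrable_const 1) ?_
  · intro t
    filter_upwards with ξ
    simpa using Real.abs_cos_le_one _
  · filter_upwards with ξ
    fun_prop

lemma abs_cosT_le (t : ℝ) : |cosT ν t| ≤ ν.real Set.univ := by
  simpa [cosT] using norm_integral_le_of_norm_le_const (μ := ν)
    (f := fun ξ => Real.cos (ξ * t)) (C := 1)
    (by filter_upwards with ξ; simpa using Real.abs_cos_le_one _)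

/-- Symmetrisation of a measure on the line. -/
noncomputable def symm2 : Measure ℝ :=
  (2⁻¹ : NNReal) • ν + (2⁻¹ : NNReal) • ν.map (fun ξ => -ξ)

instance : IsFiniteMeasure (symm2 ν) := by
  unfold symm2; infer_instance

lemma symm2_univ : (symm2 ν).real Set.univ = ν.real Set.univ := by
  simp [symm2, measureReal_def, Measure.map_apply (measurable_neg : Measurable fun ξ : ℝ => -ξ)
    MeasurableSet.univ, ENNReal.toReal_add, ENNReal.mul_ne_top, measure_ne_top]
  ring

lemma cexp_symm2 (t : ℝ) :
    ∫ ξ, Complex.exp ((ξ * t : ℝ) * Complex.I) ∂(symm2 ν) = (cosT ν t : ℂ) := by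
  have h : ∀ (μ : Measure ℝ) [IsFiniteMeasure μ] (s : ℝ),
      Integrable (fun ξ : ℝ => Complex.exp ((ξ * s : ℝ) * Complex.I)) μ := fun μ _ s =>
    Integrable.of_bound (by fun_prop) 1
      (by filter_upwards with ξ; simp [Complex.norm_exp])
  rw [symm2, integral_add_measure (h _ t) (h _ t), integral_smul_nnreal_measure,
    integral_smul_nnreal_measure, integral_map (by fun_prop) (by fun_prop), ← smul_add,
    ← integral_add (h _ t) (by simpa [neg_mul] using h ν (-t)), cosT, ← integral_complex_ofReal,
    NNReal.smul_def, Complex.real_smul, ← integral_const_mul]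
  refine integral_congr_ae ?_
  filter_upwards with ξ
  rw [Complex.ofReal_cos, Complex.cos]
  push_cast
  ring

end basic

lemma integral_cexp_gauss {ι : Type*} [Fintype ι] (s : ι → ℝ) :
    ∫ g, Complex.exp ((∑ i, g i * s i : ℝ) * Complex.I) ∂(gauss ι)
      = (Real.exp (-∑ i, s i ^ 2 / 2) : ℂ) := by
  have h : ∀ g : ι → ℝ, Complex.exp ((∑ i, g i * s i : ℝ) * Complex.I)
      = ∏ i, Complex.exp ((s i : ℂ) * (g i : ℂ) * Complex.I) := by
    intro g
    rw [← Complex.exp_sum]
    congr 1
    push_cast
    rw [Finset.sum_mul]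
    exact Finset.sum_congr rfl fun i _ => by ring
  simp_rw [h]
  rw [gauss, integral_fintype_prod_eq_prod
    (f := fun i (x : ℝ) => Complex.exp ((s i : ℂ) * (x : ℂ) * Complex.I))]
  simp_rw [← charFun_apply_real, charFun_gaussianReal]
  simp [← Complex.exp_sum, Finset.sum_neg_distrib]

section moments

variable {X : Type*} [MeasurableSpace X] {ι : Type*} [Fintype ι]

/-- The field of a configuration `x` under the pattern `g`, for coefficient vectors `z x`. -/
def field (z : X → ι → ℝ) (g : ι → ℝ) (x : X) : ℝ := ∑ i, g i * z x i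

variable (ν : Measure ℝ) [IsFiniteMeasure ν] (w : Measure X) [IsFiniteMeasure w]

/-- Weighted average of the cosine transform of the field. -/
noncomputable def avg (z : X → ι → ℝ) (g : ι → ℝ) : ℝ := ∫ x, cosT ν (field z g x) ∂w

lemma measurable_field {z : X → ι → ℝ} (hz : Measurable z) :
    Measurable (fun p : (ι → ℝ) × X => field z p.1 p.2) := by
  unfold field; fun_prop

lemma measurable_avg {z : X → ι → ℝ} (hz : Measurable z) : Measurable (avg ν w z) :=
  ((continuous_cosT ν).measurable.comp
    (measurable_field hz)).stronglyMeasurable.integral_prod_right'.measurable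

lemma abs_avg_le (z : X → ι → ℝ) (g : ι → ℝ) :
    |avg ν w z g| ≤ ν.real Set.univ * w.real Set.univ := by
  simpa [avg] using norm_integral_le_of_norm_le_const (μ := w)
    (f := fun x => cosT ν (field z g x)) (C := ν.real Set.univ)
    (by filter_upwards with x; simpa using abs_cosT_le ν _)

lemma avg_eq_cexp {z : X → ι → ℝ} (hz : Measurable z) (g : ι → ℝ) :
    (avg ν w z g : ℂ) = ∫ p : ℝ × X, Complex.exp ((p.1 * field z g p.2 : ℝ) * Complex.I)
      ∂((symm2 ν).prod w) := by
  rw [integral_prod_symm]
  · simp_rw [cexp_symm2]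
    rw [avg, integral_complex_ofReal]
  · exact Integrable.of_bound (by unfold field; fun_prop) 1
      (by filter_upwards with ξ; simp [Complex.norm_exp])

/-- Overlap energy of `n` replicas. -/
noncomputable def energy (z : X → ι → ℝ) {n : ℕ} (q : Fin n → ℝ × X) : ℝ :=
  ∑ i, (∑ l, (q l).1 * z (q l).2 i) ^ 2 / 2

lemma energy_nonneg (z : X → ι → ℝ) {n : ℕ} (q : Fin n → ℝ × X) : 0 ≤ energy z q :=
  Finset.sum_nonneg fun i _ => by positivity

lemma integrable_exp_energy {z : X → ι → ℝ} (hz : Measurable z) (n : ℕ) :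
    Integrable (fun q : Fin n → ℝ × X => Real.exp (-energy z q))
      (Measure.pi fun _ : Fin n => (symm2 ν).prod w) :=
  Integrable.of_bound (by unfold energy; fun_prop) 1
    (by filter_upwards with q; simpa [abs_of_pos (Real.exp_pos _)] using energy_nonneg z q)

lemma integral_avg_pow {z : X → ι → ℝ} (hz : Measurable z) (n : ℕ) :
    ∫ g, avg ν w z g ^ n ∂(gauss ι)
      = ∫ q, Real.exp (-energy z q) ∂(Measure.pi fun _ : Fin n => (symm2 ν).prod w) := by
  have h : ∀ g, ((avg ν w z g ^ n : ℝ) : ℂ) = ∫ q : Fin n → ℝ × X,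
      Complex.exp ((∑ i, g i * ∑ l, (q l).1 * z (q l).2 i : ℝ) * Complex.I)
      ∂(Measure.pi fun _ : Fin n => (symm2 ν).prod w) := by
    intro g
    rw [Complex.ofReal_pow, avg_eq_cexp ν w hz,
      ← Fintype.card_fin n, ← integral_fintype_prod_eq_pow, Fintype.card_fin]
    refine integral_congr_ae ?_
    filter_upwards with q
    rw [← Complex.exp_sum, ← Finset.sum_mul, ← Complex.ofReal_sum]
    congr 3
    unfold field
    simp_rw [Finset.mul_sum]
    rw [Finset.sum_comm]
    exact Finset.sum_congr rfl fun i _ => Finset.sum_congr rfl fun l _ => by ring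
  have key : ((∫ g, avg ν w z g ^ n ∂(gauss ι) : ℝ) : ℂ)
      = ((∫ q, Real.exp (-energy z q) ∂(Measure.pi fun _ : Fin n => (symm2 ν).prod w) : ℝ) : ℂ) := by
    rw [← integral_complex_ofReal, ← integral_complex_ofReal]
    simp_rw [h]
    rw [integral_integral_swap]
    · refine integral_congr_ae ?_
      filter_upwards with q
      rw [integral_cexp_gauss]
      rfl
    · exact Integrable.of_bound (by unfold Function.uncurry; fun_prop) 1
        (by filter_upwards with p; simp only [Function.uncurry, Complex.norm_exp]; simp)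
  exact_mod_cast key

variable {K : Type*} [Fintype K] [DecidableEq K]

/-- Coefficients of the mixed field. -/
noncomputable def mixC (b : ι → K) (lam : K → ℝ) (y : X → ι → ℝ) (x : X) (i : ι) : ℝ :=
  Real.sqrt (lam (b i)) * y x i

/-- Coefficients of the field of one block. -/
def blkC (b : ι → K) (j : K) (y : X → ι → ℝ) (x : X) (i : ι) : ℝ :=
  if b i = j then y x i else 0

lemma measurable_mixC (b : ι → K) (lam : K → ℝ) {y : X → ι → ℝ} (hy : Measurable y) :
    Measurable (mixC b lam y) := by
  unfold mixC; fun_prop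

lemma measurable_blkC (b : ι → K) (j : K) {y : X → ι → ℝ} (hy : Measurable y) :
    Measurable (blkC b j y) := by
  refine measurable_pi_lambda _ fun i => ?_
  unfold blkC
  split <;> fun_prop

lemma energy_mix (b : ι → K) {lam : K → ℝ} (h0 : ∀ j, 0 ≤ lam j) (y : X → ι → ℝ) {n : ℕ}
    (q : Fin n → ℝ × X) :
    energy (mixC b lam y) q = ∑ j, lam j * energy (blkC b j y) q := by
  unfold energy
  simp_rw [Finset.mul_sum]
  rw [Finset.sum_comm]
  refine Finset.sum_congr rfl fun i _ => ?_
  rw [Finset.sum_eq_single (b i)]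
  · simp only [mixC, blkC, if_pos]
    have : (∑ l, (q l).1 * (Real.sqrt (lam (b i)) * y (q l).2 i))
        = Real.sqrt (lam (b i)) * ∑ l, (q l).1 * y (q l).2 i := by
      rw [Finset.mul_sum]; exact Finset.sum_congr rfl fun l _ => by ring
    rw [this, mul_pow, Real.sq_sqrt (h0 _)]
    ring
  · intro j _ hj
    simp [blkC, Ne.symm hj]
  · simp

lemma moment_convex (b : ι → K) {lam : K → ℝ} (h0 : ∀ j, 0 ≤ lam j) (h1 : ∑ j, lam j = 1)
    {y : X → ι → ℝ} (hy : Measurable y) (n : ℕ) :
    ∫ g, avg ν w (mixC b lam y) g ^ n ∂(gauss ι)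
      ≤ ∑ j, lam j * ∫ g, avg ν w (blkC b j y) g ^ n ∂(gauss ι) := by
  simp_rw [integral_avg_pow ν w (measurable_mixC b lam hy),
    fun j => integral_avg_pow ν w (measurable_blkC b j hy), ← integral_const_mul]
  rw [← integral_finsetSum _ fun j _ => (integrable_exp_energy ν w (measurable_blkC b j hy) n).const_mul _]
  refine integral_mono (integrable_exp_energy ν w (measurable_mixC b lam hy) n)
    (integrable_finsetSum _ fun j _ => (integrable_exp_energy ν w (measurable_blkC b j hy) n).const_mul _)
    fun q => ?_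
  simp only [energy_mix b h0]
  have := convexOn_exp.map_sum_le (t := Finset.univ) (w := lam)
    (p := fun j => -energy (blkC b j y) q) (fun j _ => h0 j) h1 (fun j _ => Set.mem_univ _)
  simpa [Finset.sum_neg_distrib] using this

lemma hasSum_log {c T : ℝ} (hT : 0 < T) (hc : |c| < T) :
    HasSum (fun n : ℕ => (c / T) ^ (n + 1) / (n + 1)) (Real.log T - Real.log (T - c)) := by
  have h : |c / T| < 1 := by rw [abs_div, abs_of_pos hT, div_lt_one hT]; exact hc
  have hpos : 0 < T - c := by linarith [(abs_lt.1 hc).2]
  have := hasSum_pow_div_log_of_abs_lt_one h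
  rwa [show 1 - c / T = (T - c) / T by field_simp, Real.log_div hpos.ne' hT.ne', neg_sub] at this

variable {a : ℝ}

lemma hasSum_integral_log {z : X → ι → ℝ} (hz : Measurable z) (ha : ν.real Set.univ < a)
    (hw : 0 < w.real Set.univ) :
    HasSum (fun n : ℕ => (∫ g, avg ν w z g ^ (n + 1) ∂(gauss ι))
        / (a * w.real Set.univ) ^ (n + 1) / (n + 1))
      (∫ g, Real.log (a * w.real Set.univ) - Real.log (a * w.real Set.univ - avg ν w z g)
        ∂(gauss ι)) := by
  set T := a * w.real Set.univ with hTdef
  set ρ := ν.real Set.univ * w.real Set.univ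
  have hρ : ρ < T := mul_lt_mul_of_pos_right ha hw
  have hρ0 : 0 ≤ ρ := by positivity
  have hT : 0 < T := hρ0.trans_lt hρ
  have hb : ∀ g, |avg ν w z g| ≤ ρ := abs_avg_le ν w z
  have hbd : ∀ (n : ℕ) g, ‖(avg ν w z g / T) ^ (n + 1) / ((n : ℝ) + 1)‖ ≤ (ρ / T) ^ (n + 1) := by
    intro n g
    rw [norm_div, norm_pow, norm_div, Real.norm_eq_abs, Real.norm_eq_abs T, abs_of_pos hT,
      Real.norm_eq_abs, abs_of_pos (by positivity : (0:ℝ) < (n:ℝ) + 1)]
    calc (|avg ν w z g| / T) ^ (n + 1) / ((n : ℝ) + 1)
        ≤ (|avg ν w z g| / T) ^ (n + 1) := div_le_self (by positivity) (by simp)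
      _ ≤ _ := by gcongr; exact hb g
  have hs : Summable fun n : ℕ => (ρ / T) ^ (n + 1) :=
    (summable_nat_add_iff 1).2
      (summable_geometric_of_lt_one (by positivity) ((div_lt_one hT).2 hρ))
  have H := hasSum_integral_of_dominated_convergence (μ := gauss ι)
    (F := fun (n : ℕ) g => (avg ν w z g / T) ^ (n + 1) / ((n : ℝ) + 1))
    (f := fun g => Real.log T - Real.log (T - avg ν w z g))
    (fun (n : ℕ) _ => (ρ / T) ^ (n + 1))
    (fun n => (((measurable_avg ν w hz).div_const T).pow_const _ |>.div_const _).aestronglyMeasurable)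
    (fun n => Filter.Eventually.of_forall (hbd n))
    (Filter.Eventually.of_forall fun _ => hs)
    (integrable_const _)
    (Filter.Eventually.of_forall fun g => hasSum_log hT ((hb g).trans_lt hρ))
  refine H.congr_fun fun n => ?_
  simp only [div_pow]
  rw [integral_div, integral_div]

/-- Averaged over one pattern, a mixed field gives a larger log-average than the mixture of
the block fields. -/
theorem one_pattern (b : ι → K) {lam : K → ℝ} (h0 : ∀ j, 0 ≤ lam j) (h1 : ∑ j, lam j = 1)
    {y : X → ι → ℝ} (hy : Measurable y) (ha : ν.real Set.univ < a) :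
    ∑ j, lam j * ∫ g, Real.log (∫ x, (a - cosT ν (field (blkC b j y) g x)) ∂w) ∂(gauss ι)
      ≤ ∫ g, Real.log (∫ x, (a - cosT ν (field (mixC b lam y) g x)) ∂w) ∂(gauss ι) := by
  by_cases hw : w = 0
  · subst hw
    simp [integral_zero_measure]
  have hw' : 0 < w.real Set.univ := by
    rw [measureReal_def, ENNReal.toReal_pos_iff]
    exact ⟨pos_iff_ne_zero.2 (by simpa using hw), measure_lt_top _ _⟩
  set T := a * w.real Set.univ
  have hI : ∀ {z : X → ι → ℝ}, Measurable z → ∀ g,
      (∫ x, (a - cosT ν (field z g x)) ∂w) = T - avg ν w z g := by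
    intro z hz g
    rw [integral_sub (integrable_const _)]
    · simp [avg, T, mul_comm]
    · refine Integrable.of_bound ?_ (ν.real Set.univ)
        (Filter.Eventually.of_forall fun x => by simpa using abs_cosT_le ν _)
      exact ((continuous_cosT ν).measurable.comp
        (by unfold field; fun_prop)).aestronglyMeasurable
  have hρ : ν.real Set.univ * w.real Set.univ < T := mul_lt_mul_of_pos_right ha hw'
  have hT : 0 < T := lt_of_le_of_lt (by positivity) hρ
  have hint : ∀ {z : X → ι → ℝ}, Measurable z →
      Integrable (fun g => Real.log (T - avg ν w z g)) (gauss ι) := by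
    intro z hz
    refine Integrable.of_bound
      (Real.measurable_log.comp ((measurable_avg ν w hz).const_sub T)).aestronglyMeasurable
      (max |Real.log (T - ν.real Set.univ * w.real Set.univ)|
        |Real.log (T + ν.real Set.univ * w.real Set.univ)|)
      (Filter.Eventually.of_forall fun g => ?_)
    obtain ⟨l, u⟩ := abs_le.1 (abs_avg_le ν w z g)
    exact abs_le_max_abs_abs (Real.log_le_log (by linarith) (by linarith))
      (Real.log_le_log (by linarith) (by linarith))
  simp only [hI (measurable_mixC b lam hy), fun j => hI (measurable_blkC b j hy)]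
  have HL := hasSum_integral_log ν w (measurable_mixC b lam hy) ha hw'
  have HR := hasSum_sum (s := Finset.univ) fun j _ =>
    (hasSum_integral_log ν w (measurable_blkC b j hy) ha hw').mul_left (lam j)
  have hle := hasSum_le (fun n => ?_) HL HR
  · have e : ∀ {z : X → ι → ℝ}, Measurable z →
        (∫ g, Real.log T - Real.log (T - avg ν w z g) ∂(gauss ι))
          = Real.log T - ∫ g, Real.log (T - avg ν w z g) ∂(gauss ι) := by
      intro z hz
      rw [integral_sub (integrable_const _) (hint hz)]
      simp
    rw [e (measurable_mixC b lam hy), Finset.sum_congr rfl fun j _ =>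
      show lam j * (∫ g, Real.log T - Real.log (T - avg ν w (blkC b j y) g) ∂(gauss ι))
        = lam j * Real.log T - lam j * ∫ g, Real.log (T - avg ν w (blkC b j y) g) ∂(gauss ι) by
        rw [e (measurable_blkC b j hy)]; ring] at hle
    rw [Finset.sum_sub_distrib, ← Finset.sum_mul, h1, one_mul] at hle
    linarith
  · calc _ ≤ (∑ j, lam j * ∫ g, avg ν w (blkC b j y) g ^ (n + 1) ∂(gauss ι)) / T ^ (n + 1)
          / ((n : ℝ) + 1) := by
          gcongr
          exact moment_convex ν w b h0 h1 hy (n + 1)
      _ = _ := by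
          rw [Finset.sum_div, Finset.sum_div]
          exact Finset.sum_congr rfl fun j _ => by ring

end moments

end Vale.Agent.P157
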