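import Vale.Agent.P157.Kernel

/-!
All patterns: splitting a system into blocks can only lower the averaged log-partition function.
-/

namespace Vale.Agent.P157

open MeasureTheory ProbabilityTheory Real
open scoped ENNReal

/-- Patterns indexed by `Fin M`. -/
noncomputable def pgauss (M : ℕ) (ι : Type*) [Fintype ι] : Measure (Fin M → ι → ℝ) :=
  Measure.pi (fun _ : Fin M => gauss ι)

instance (M : ℕ) (ι : Type*) [Fintype ι] : IsProbabilityMeasure (pgauss M ι) := by
  unfold pgauss; infer_instance

/-- All blocks of positive weight have unit length almost surely. -/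
def UnitBlk {X : Type} [MeasurableSpace X] {ι : Type} [Fintype ι] {K : Type} [DecidableEq K]
    (b : ι → K) (lam : K → ℝ) (y : X → ι → ℝ) (w : Measure X) : Prop :=
  ∀ᵐ x ∂w, ∀ j, lam j ≠ 0 → ∑ i, blkC b j y x i ^ 2 = 1

/-- The weight `exp f` of one pattern: bounded away from zero and infinity, and such that splitting
the field of one pattern into blocks of unit length cannot raise the averaged log-average. -/
structure Pot where
  fn : ℝ → ℝ
  lo : ℝ
  hi : ℝ
  lo_pos : 0 < lo
  mem : ∀ t, lo ≤ fn t ∧ fn t ≤ hi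
  meas : Measurable fn
  one : ∀ {X : Type} [MeasurableSpace X] {ι : Type} [Fintype ι] {K : Type} [Fintype K]
    [DecidableEq K] (w : Measure X) [IsFiniteMeasure w] (b : ι → K) {lam : K → ℝ},
    (∀ j, 0 ≤ lam j) → ∑ j, lam j = 1 → ∀ {y : X → ι → ℝ}, Measurable y → UnitBlk b lam y w →
    ∑ j, lam j * ∫ g, Real.log (∫ x, fn (field (blkC b j y) g x) ∂w) ∂(gauss ι)
      ≤ ∫ g, Real.log (∫ x, fn (field (mixC b lam y) g x) ∂w) ∂(gauss ι)

lemma Pot.pos (Φ : Pot) (t : ℝ) : 0 < Φ.fn t := Φ.lo_pos.trans_le (Φ.mem t).1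

/-- Bound for the absolute value of the logarithm of the weight. -/
noncomputable def Pot.bd (Φ : Pot) : ℝ := max |Real.log Φ.lo| |Real.log Φ.hi|

lemma Pot.bd_nonneg (Φ : Pot) : 0 ≤ Φ.bd := le_trans (abs_nonneg _) (le_max_left _ _)

lemma mp_comp {α : Type*} [MeasurableSpace α] (μ : Measure α) [IsProbabilityMeasure μ]
    {κ κ' : Type*} [Fintype κ] [Fintype κ'] {e : κ' → κ} (he : Function.Injective e) :
    MeasurePreserving (fun (G : κ → α) (i : κ') => G (e i))
      (Measure.pi fun _ => μ) (Measure.pi fun _ => μ) := by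
  refine ⟨by fun_prop, (Measure.pi_eq fun s hs => ?_).symm⟩
  rw [Measure.map_apply (by fun_prop) (MeasurableSet.univ_pi hs)]
  have h : (fun (G : κ → α) (i : κ') => G (e i)) ⁻¹' Set.univ.pi s
      = Set.univ.pi (Function.extend e s fun _ => Set.univ) := by
    ext G
    simp only [Set.mem_preimage, Set.mem_univ_pi]
    refine ⟨fun hG i => ?_, fun hG i => by simpa [he.extend_apply] using hG (e i)⟩
    by_cases hi : ∃ l, e l = i
    · obtain ⟨l, rfl⟩ := hi
      simpa [he.extend_apply] using hG l
    · simp [Function.extend_apply' _ _ _ hi]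
  rw [h, Measure.pi_pi]
  refine (Fintype.prod_of_injective e he _ _ (fun i hi => ?_) fun i => ?_).symm
  · rw [Function.extend_apply' _ _ _ (by simpa using hi)]
    simp
  · simp [he.extend_apply]

lemma integral_comp_mp {α β : Type*} [MeasurableSpace α] [MeasurableSpace β] {μ : Measure α}
    {ν : Measure β} {f : α → β} (hf : MeasurePreserving f μ ν) {g : β → ℝ} (hg : Measurable g) :
    ∫ x, g (f x) ∂μ = ∫ y, g y ∂ν := by
  rw [← hf.map_eq, integral_map hf.measurable.aemeasurable hg.aestronglyMeasurable]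

lemma integral_cons {α : Type*} [MeasurableSpace α] (μ : Measure α) [IsProbabilityMeasure μ]
    (M : ℕ) {F : (Fin (M + 1) → α) → ℝ} (hF : Measurable F) :
    ∫ G, F G ∂(Measure.pi fun _ => μ)
      = ∫ p : α × (Fin M → α), F (Fin.cons p.1 p.2) ∂(μ.prod (Measure.pi fun _ => μ)) := by
  have h := measurePreserving_piFinSuccAbove (fun _ : Fin (M + 1) => μ) 0
  rw [← h.symm.map_eq, integral_map h.symm.measurable.aemeasurable hF.aestronglyMeasurable]
  simp [MeasurableEquiv.piFinSuccAbove_symm_apply, Fin.consEquiv]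

section patterns

variable {X : Type} [MeasurableSpace X] {ι : Type} [Fintype ι]

variable {Φ : Pot}

/-- Product of the pattern weights. -/
noncomputable def wprod (Φ : Pot) {M : ℕ} (z : Fin M → X → ι → ℝ)
    (G : Fin M → ι → ℝ) (x : X) : ℝ := ∏ m, Φ.fn (field (z m) (G m) x)

lemma wprod_mem {M : ℕ} (z : Fin M → X → ι → ℝ) (G : Fin M → ι → ℝ)
    (x : X) : Φ.lo ^ M ≤ wprod Φ z G x ∧
      wprod Φ z G x ≤ Φ.hi ^ M := by
  unfold wprod
  constructor
  · calc Φ.lo ^ M = ∏ _m : Fin M, Φ.lo := by simp
      _ ≤ _ := Finset.prod_le_prod (fun _ _ => Φ.lo_pos.le) fun m _ => (Φ.mem _).1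
  · calc _ ≤ ∏ _m : Fin M, Φ.hi :=
        Finset.prod_le_prod (fun m _ => (Φ.pos _).le) fun m _ => (Φ.mem _).2
      _ = _ := by simp

lemma measurable_wprod {M : ℕ} {z : Fin M → X → ι → ℝ} (hz : ∀ m, Measurable (z m)) :
    Measurable (fun p : (Fin M → ι → ℝ) × X => wprod Φ z p.1 p.2) := by
  unfold wprod
  refine Finset.measurable_prod Finset.univ fun m _ => Φ.meas.comp ?_
  have e : Measurable fun p : (Fin M → ι → ℝ) × X => (p.1 m, p.2) :=
    ((measurable_pi_apply m).comp measurable_fst).prodMk measurable_snd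
  exact Measurable.comp (g := fun q : (ι → ℝ) × X => field (z m) q.1 q.2)
    (measurable_field (hz m)) e

lemma measurable_wprod_right {M : ℕ} {z : Fin M → X → ι → ℝ} (hz : ∀ m, Measurable (z m))
    (G : Fin M → ι → ℝ) : Measurable (wprod Φ z G) := by
  unfold wprod
  refine Finset.measurable_prod Finset.univ fun m _ => Φ.meas.comp ?_
  refine Finset.measurable_sum Finset.univ fun i _ => ?_
  exact ((measurable_pi_apply i).comp (hz m)).const_mul _

/-- Log partition function. -/
noncomputable def logZ (Φ : Pot) (w : Measure X) {M : ℕ}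
    (z : Fin M → X → ι → ℝ) (G : Fin M → ι → ℝ) : ℝ :=
  Real.log (∫ x, wprod Φ z G x ∂w)

/-- Averaged log partition function. -/
noncomputable def elogZ (Φ : Pot) (w : Measure X) {M : ℕ}
    (z : Fin M → X → ι → ℝ) : ℝ := ∫ G, logZ Φ w z G ∂(pgauss M ι)

variable (w : Measure X) [IsFiniteMeasure w]

lemma integrable_wprod {M : ℕ} {z : Fin M → X → ι → ℝ}
    (hz : ∀ m, Measurable (z m)) (G : Fin M → ι → ℝ) : Integrable (wprod Φ z G) w := by
  refine Integrable.of_bound (measurable_wprod_right hz G).aestronglyMeasurable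
    (Φ.hi ^ M) (Filter.Eventually.of_forall fun x => ?_)
  rw [Real.norm_eq_abs, abs_of_nonneg]
  · exact (wprod_mem (Φ := Φ) z G x).2
  · exact le_trans (pow_nonneg (by linarith [Φ.lo_pos]) _) (wprod_mem (Φ := Φ) z G x).1

lemma intWprod_mem {M : ℕ} {z : Fin M → X → ι → ℝ}
    (hz : ∀ m, Measurable (z m)) (G : Fin M → ι → ℝ) :
    Φ.lo ^ M * w.real Set.univ ≤ ∫ x, wprod Φ z G x ∂w ∧
      ∫ x, wprod Φ z G x ∂w ≤ Φ.hi ^ M * w.real Set.univ := by
  have h1 := integral_mono (integrable_const _) (integrable_wprod (Φ := Φ) w hz G)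
    fun x => (wprod_mem (Φ := Φ) z G x).1
  have h2 := integral_mono (integrable_wprod (Φ := Φ) w hz G) (integrable_const _)
    fun x => (wprod_mem (Φ := Φ) z G x).2
  simp only [integral_const, smul_eq_mul] at h1 h2
  constructor <;> linarith

lemma measurable_logZ {M : ℕ} {z : Fin M → X → ι → ℝ} (hz : ∀ m, Measurable (z m)) :
    Measurable (logZ Φ w z) :=
  Real.measurable_log.comp
    (measurable_wprod hz).stronglyMeasurable.integral_prod_right'.measurable

lemma integrable_logZ {M : ℕ} {z : Fin M → X → ι → ℝ}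
    (hz : ∀ m, Measurable (z m)) : Integrable (logZ Φ w z) (pgauss M ι) := by
  refine Integrable.of_bound (measurable_logZ w hz).aestronglyMeasurable
    (max |Real.log (Φ.lo ^ M * w.real Set.univ)|
      |Real.log (Φ.hi ^ M * w.real Set.univ)|)
    (Filter.Eventually.of_forall fun G => ?_)
  obtain ⟨l, u⟩ := intWprod_mem w hz G
  rcases eq_or_lt_of_le (measureReal_nonneg (μ := w) (s := Set.univ)) with hw | hw
  · rw [← hw, mul_zero] at l u
    have : ∫ x, wprod Φ z G x ∂w = 0 := le_antisymm u l
    simp [logZ, this]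
  · have hp : 0 < Φ.lo ^ M * w.real Set.univ :=
      mul_pos (pow_pos (by linarith [Φ.lo_pos]) _) hw
    exact abs_le_max_abs_abs (Real.log_le_log hp l) (Real.log_le_log (hp.trans_le l) u)

lemma wprod_cons {M : ℕ} (z0 : X → ι → ℝ) (z : Fin M → X → ι → ℝ) (g : ι → ℝ)
    (G : Fin M → ι → ℝ) (x : X) :
    wprod Φ (Fin.cons z0 z) (Fin.cons g G) x
      = Φ.fn (field z0 g x) * wprod Φ z G x := by
  simp [wprod, Fin.prod_univ_succ]

omit [IsFiniteMeasure w] in
lemma logZ_tilt {h : X → ℝ} (hh : Measurable h) (h0 : ∀ x, 0 ≤ h x) (F : X → ℝ) :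
    Real.log (∫ x, F x ∂(w.withDensity fun x => ENNReal.ofReal (h x)))
      = Real.log (∫ x, h x * F x ∂w) := by
  rw [integral_withDensity_eq_integral_toReal_smul hh.ennreal_ofReal
    (Filter.Eventually.of_forall fun _ => ENNReal.ofReal_lt_top)]
  simp [ENNReal.toReal_ofReal (h0 _)]

variable {K : Type} [Fintype K] [DecidableEq K]

omit [DecidableEq K] in
lemma sum_integral_le {α : Type*} [MeasurableSpace α] {μ : Measure α} {κ : Type*} [Fintype κ]
    (l : κ → ℝ) {f : κ → α → ℝ} {g : α → ℝ} (hf : ∀ i, Integrable (f i) μ)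
    (hg : Integrable g μ) (h : ∀ x, ∑ i, l i * f i x ≤ g x) :
    ∑ i, l i * ∫ x, f i x ∂μ ≤ ∫ x, g x ∂μ := by
  simp_rw [← integral_const_mul]
  rw [← integral_finsetSum _ fun i _ => (hf i).const_mul _]
  exact integral_mono (integrable_finsetSum _ fun i _ => (hf i).const_mul _) hg h

/-- Probability of an assignment of patterns to blocks. -/
def wt {M : ℕ} (lam : K → ℝ) (c : Fin M → K) : ℝ := ∏ m, lam (c m)

omit [DecidableEq K] in
lemma sum_cons {M : ℕ} (F : (Fin (M + 1) → K) → ℝ) :
    ∑ c, F c = ∑ j, ∑ c : Fin M → K, F (Fin.cons j c) := by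
  rw [← (Fin.consEquiv fun _ : Fin (M + 1) => K).sum_comp, Fintype.sum_prod_type]
  rfl

/-- The splitting inequality for all patterns. -/
theorem split_le (b : ι → K) {lam : K → ℝ} (h0 : ∀ j, 0 ≤ lam j) (h1 : ∑ j, lam j = 1)
    {y : X → ι → ℝ} (hy : Measurable y) (M : ℕ) :
    ∀ (w : Measure X), IsFiniteMeasure w → UnitBlk b lam y w →
    ∑ c : Fin M → K, wt lam c * elogZ Φ w (fun m => blkC b (c m) y)
      ≤ elogZ Φ w (fun _ : Fin M => mixC b lam y) := by
  induction M with
  | zero =>
    intro w _ _
    refine le_of_eq ?_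
    rw [Fintype.sum_unique]
    simp only [wt, Finset.univ_eq_empty, Finset.prod_empty, one_mul, elogZ, logZ, wprod]
  | succ M ih =>
    intro w hwf hun
    haveI := hwf
    set u := mixC b lam y
    have hu : Measurable u := measurable_mixC b lam hy
    have hv : ∀ j, Measurable (blkC b j y) := fun j => measurable_blkC b j hy
    have split : ∀ (z0 : X → ι → ℝ) (z : Fin M → X → ι → ℝ), Measurable z0 →
        (∀ m, Measurable (z m)) →
        Integrable (fun p : (ι → ℝ) × (Fin M → ι → ℝ) =>
          Real.log (∫ x, Φ.fn (field z0 p.1 x) * wprod Φ z p.2 x ∂w))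
          ((gauss ι).prod (pgauss M ι)) ∧
        elogZ Φ w (Fin.cons z0 z : Fin (M + 1) → X → ι → ℝ) =
        ∫ p : (ι → ℝ) × (Fin M → ι → ℝ),
          Real.log (∫ x, Φ.fn (field z0 p.1 x) * wprod Φ z p.2 x ∂w)
          ∂((gauss ι).prod (pgauss M ι)) := by
      intro z0 z h0z hz
      have hall : ∀ m : Fin (M + 1),
          Measurable ((Fin.cons z0 z : Fin (M + 1) → X → ι → ℝ) m) :=
        Fin.cases (by simpa using h0z) (by simpa using hz)
      constructor
      · have := (integrable_logZ (Φ := Φ) w hall)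
        have h := measurePreserving_piFinSuccAbove (fun _ : Fin (M + 1) => gauss ι) 0
        have h2 := (h.symm.integrable_comp_emb (MeasurableEquiv.measurableEmbedding _)
          (g := logZ Φ w (Fin.cons z0 z : Fin (M + 1) → X → ι → ℝ))).2 this
        refine h2.congr (Filter.Eventually.of_forall fun p => ?_)
        simp [MeasurableEquiv.piFinSuccAbove_symm_apply, Fin.consEquiv, logZ, wprod_cons]
      · rw [elogZ, pgauss, integral_cons _ _ (measurable_logZ w hall)]
        refine integral_congr_ae (Filter.Eventually.of_forall fun p => ?_)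
        simp [logZ, wprod_cons]
    have step1 : ∀ c : Fin M → K,
        ∑ j, lam j * elogZ Φ w (Fin.cons (blkC b j y) fun m => blkC b (c m) y :
          Fin (M + 1) → X → ι → ℝ)
        ≤ elogZ Φ w (Fin.cons u fun m => blkC b (c m) y : Fin (M + 1) → X → ι → ℝ) := by
      intro c
      obtain ⟨i0, e0⟩ := split u (fun m => blkC b (c m) y) hu fun m => hv _
      rw [e0, integral_prod_symm _ i0]
      simp_rw [fun j => (split (blkC b j y) (fun m => blkC b (c m) y) (hv j) fun m => hv _).2,
        fun j => integral_prod_symm _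
          (split (blkC b j y) (fun m => blkC b (c m) y) (hv j) fun m => hv _).1]
      refine sum_integral_le lam (fun j => (split (blkC b j y) (fun m => blkC b (c m) y) (hv j)
        fun m => hv _).1.integral_prod_right) i0.integral_prod_right fun G => ?_
      set P := wprod Φ (fun m => blkC b (c m) y) G with hPdef
      have hP : Measurable P := measurable_wprod_right (fun m => hv _) G
      have hP0 : ∀ x, 0 ≤ P x := fun x =>
        le_trans (pow_nonneg (by linarith [Φ.lo_pos]) _) (wprod_mem _ G x).1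
      haveI : IsFiniteMeasure (w.withDensity fun x => ENNReal.ofReal (P x)) :=
        isFiniteMeasure_withDensity_ofReal (integrable_wprod w (fun m => hv _) G).2
      have H := Φ.one (w.withDensity fun x => ENNReal.ofReal (P x)) b h0 h1 hy
        ((withDensity_absolutelyContinuous w _).ae_le hun) 
      simp only [logZ_tilt w hP hP0] at H
      simpa [mul_comm] using H
    have step2 : ∑ c : Fin M → K, wt lam c *
        elogZ Φ w (Fin.cons u fun m => blkC b (c m) y : Fin (M + 1) → X → ι → ℝ)
        ≤ elogZ Φ w (Fin.cons u fun _ => u : Fin (M + 1) → X → ι → ℝ) := by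
      obtain ⟨i0, e0⟩ := split u (fun _ => u) hu fun _ => hu
      rw [e0, integral_prod _ i0]
      simp_rw [fun c : Fin M → K => (split u (fun m => blkC b (c m) y) hu fun m => hv _).2,
        fun c : Fin M → K => integral_prod _
          (split u (fun m => blkC b (c m) y) hu fun m => hv _).1]
      refine sum_integral_le (wt lam) (fun c =>
        (split u (fun m => blkC b (c m) y) hu fun m => hv _).1.integral_prod_left)
        i0.integral_prod_left fun g => ?_
      set P := fun x => Φ.fn (field u g x) with hPdef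
      have hP : Measurable P := Φ.meas.comp (by unfold field; fun_prop)
      have hP0 : ∀ x, 0 ≤ P x := fun x => (Φ.pos _).le
      have hfin : IsFiniteMeasure (w.withDensity fun x => ENNReal.ofReal (P x)) :=
        isFiniteMeasure_withDensity_ofReal (Integrable.of_bound hP.aestronglyMeasurable
          Φ.hi (Filter.Eventually.of_forall fun x => by
            rw [Real.norm_eq_abs, abs_of_nonneg (hP0 x)]; exact (Φ.mem _).2)).2
      have H := ih (w.withDensity fun x => ENNReal.ofReal (P x)) hfin
        ((withDensity_absolutelyContinuous w _).ae_le hun)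
      simp only [elogZ, logZ, logZ_tilt w hP hP0] at H
      exact H
    have econs : ∀ (j : K) (c : Fin M → K),
        (fun m => blkC b ((Fin.cons j c : Fin (M + 1) → K) m) y)
          = (Fin.cons (blkC b j y) fun m => blkC b (c m) y : Fin (M + 1) → X → ι → ℝ) := by
      intro j c
      funext m
      refine Fin.cases ?_ ?_ m <;> simp
    have econst : (fun _ : Fin (M + 1) => u)
        = (Fin.cons u fun _ => u : Fin (M + 1) → X → ι → ℝ) := by
      funext m
      refine Fin.cases ?_ ?_ m <;> simp
    rw [econst, sum_cons, Finset.sum_comm]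
    refine le_trans ?_ step2
    refine Finset.sum_le_sum fun c _ => ?_
    calc _ = wt lam c * ∑ j, lam j * elogZ Φ w (Fin.cons (blkC b j y) fun m => blkC b (c m) y :
          Fin (M + 1) → X → ι → ℝ) := by
          rw [Finset.mul_sum]
          refine Finset.sum_congr rfl fun j _ => ?_
          rw [econs]
          simp [wt, Fin.prod_univ_succ]
          ring
      _ ≤ _ := mul_le_mul_of_nonneg_left (step1 c) (Finset.prod_nonneg fun m _ => h0 _)

end patterns

end Vale.Agent.P157
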