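import Vale.Agent.P157.Patterns

/-!
Gaussian moments of `∫ cos (ξ t + θ) dν`, and Jensen gaps along a splitting of the overlaps.
-/

namespace Vale.Agent.P157

open MeasureTheory ProbabilityTheory Real

/-- A frequency and a phase. -/
abbrev FP : Type := ℝ × ℝ

variable (ν : Measure FP) [IsProbabilityMeasure ν]

/-- The transform `∫ cos (ξ t + θ) dν (ξ, θ)`. -/
noncomputable def phaseT (t : ℝ) : ℝ := ∫ p, Real.cos (p.1 * t + p.2) ∂ν

/-- Symmetrisation. -/
noncomputable def symP : Measure FP :=
  (2⁻¹ : NNReal) • ν + (2⁻¹ : NNReal) • ν.map (fun p => -p)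

instance : IsProbabilityMeasure (symP ν) := by
  constructor
  simp [symP, Measure.map_apply (measurable_neg : Measurable fun p : FP => -p) MeasurableSet.univ,
    ENNReal.inv_two_add_inv_two]

lemma integral_symP {E : Type} [NormedAddCommGroup E] [NormedSpace ℝ E] {f : FP → E}
    (hf : Continuous f) (h1 : Integrable f ν) (h2 : Integrable (fun p => f (-p)) ν) :
    ∫ p, f p ∂(symP ν) = (2⁻¹ : ℝ) • ((∫ p, f p ∂ν) + ∫ p, f (-p) ∂ν) := by
  have hm : Integrable f (ν.map fun p => -p) :=
    (integrable_map_measure hf.aestronglyMeasurable (by fun_prop)).2 h2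
  rw [symP, integral_add_measure h1.smul_measure_nnreal hm.smul_measure_nnreal,
    integral_smul_nnreal_measure, integral_smul_nnreal_measure,
    integral_map (by fun_prop) hf.aestronglyMeasurable, ← smul_add]
  simp [NNReal.smul_def]

lemma cexp_symP (t : ℝ) :
    ∫ p, Complex.exp ((p.1 * t + p.2 : ℝ) * Complex.I) ∂(symP ν) = (phaseT ν t : ℂ) := by
  have hb : ∀ s : ℝ, Integrable (fun p : FP => Complex.exp (((p.1 * t + p.2) * s : ℝ) * Complex.I)) ν :=
    fun s => Integrable.of_bound (by fun_prop) 1
      (by filter_upwards with p; simp [Complex.norm_exp])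
  rw [integral_symP ν (by fun_prop) (by simpa using hb 1)
    ((hb (-1)).congr (Filter.Eventually.of_forall fun p => by
      simp only [Prod.fst_neg, Prod.snd_neg]; ring_nf)),
    ← integral_add (by simpa using hb 1)
      ((hb (-1)).congr (Filter.Eventually.of_forall fun p => by
        simp only [Prod.fst_neg, Prod.snd_neg]; ring_nf)),
    phaseT, ← integral_complex_ofReal, ← integral_smul]
  refine integral_congr_ae ?_
  filter_upwards with p
  simp only [Prod.fst_neg, Prod.snd_neg, Complex.real_smul, Complex.ofReal_cos, Complex.cos]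
  push_cast
  ring_nf

lemma abs_phaseT_le (t : ℝ) : |phaseT ν t| ≤ 1 := by
  simpa [phaseT] using norm_integral_le_of_norm_le_const (μ := ν)
    (f := fun p => Real.cos (p.1 * t + p.2)) (C := 1)
    (by filter_upwards with p; simpa using Real.abs_cos_le_one _)

lemma continuous_phaseT : Continuous (phaseT ν) := by
  refine continuous_of_dominated (fun t => by fun_prop) (bound := fun _ => (1:ℝ)) ?_
    (integrable_const 1) ?_
  · intro t
    filter_upwards with p
    simpa using Real.abs_cos_le_one _
  · filter_upwards with p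
    fun_prop

variable {X : Type} [MeasurableSpace X] {ι : Type} [Fintype ι] (w : Measure X) [IsProbabilityMeasure w]

/-- Average of the transform of the field. -/
noncomputable def pavg (z : X → ι → ℝ) (g : ι → ℝ) : ℝ := ∫ x, phaseT ν (field z g x) ∂w

/-- Energy of `n` replicas. -/
noncomputable def penergy (z : X → ι → ℝ) {n : ℕ} (q : Fin n → FP × X) : ℝ :=
  energy z fun l => ((q l).1.1, (q l).2)

/-- The sum of the phases. -/
def phases {n : ℕ} (q : Fin n → FP × X) : ℝ := ∑ l, (q l).1.2

/-- The law of `n` replicas. -/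
noncomputable def repl (n : ℕ) : Measure (Fin n → FP × X) :=
  Measure.pi fun _ => (symP ν).prod w

instance (n : ℕ) : IsProbabilityMeasure (repl ν w n) := by
  unfold repl; infer_instance

lemma measurable_pavg {z : X → ι → ℝ} (hz : Measurable z) : Measurable (pavg ν w z) :=
  ((continuous_phaseT ν).measurable.comp
    (measurable_field hz)).stronglyMeasurable.integral_prod_right'.measurable

lemma abs_pavg_le (z : X → ι → ℝ) (g : ι → ℝ) : |pavg ν w z g| ≤ 1 := by
  simpa [pavg] using norm_integral_le_of_norm_le_const (μ := w)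
    (f := fun x => phaseT ν (field z g x)) (C := 1)
    (by filter_upwards with x; simpa using abs_phaseT_le ν _)

lemma measurable_penergy {z : X → ι → ℝ} (hz : Measurable z) (n : ℕ) :
    Measurable (penergy z : (Fin n → FP × X) → ℝ) := by
  unfold penergy energy; fun_prop

lemma integrable_kernel {z : X → ι → ℝ} (hz : Measurable z) (n : ℕ) :
    Integrable (fun q => Real.cos (phases q) * Real.exp (-penergy z q)) (repl ν w n) := by
  refine Integrable.of_bound (((Real.measurable_cos.comp (by unfold phases; fun_prop)).mul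
    (Real.measurable_exp.comp (measurable_penergy hz n).neg)).aestronglyMeasurable) 1
    (Filter.Eventually.of_forall fun q => ?_)
  rw [Real.norm_eq_abs, abs_mul, Real.abs_exp]
  exact mul_le_one₀ (Real.abs_cos_le_one _) (Real.exp_pos _).le
    (Real.exp_le_one_iff.2 (neg_nonpos.2 (energy_nonneg z _)))

lemma integral_pavg_pow {z : X → ι → ℝ} (hz : Measurable z) (n : ℕ) :
    ∫ g, pavg ν w z g ^ n ∂(gauss ι)
      = ∫ q, Real.cos (phases q) * Real.exp (-penergy z q) ∂(repl ν w n) := by
  have hg : ∀ g, (pavg ν w z g : ℂ) = ∫ p : FP × X,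
      Complex.exp ((p.1.1 * field z g p.2 + p.1.2 : ℝ) * Complex.I) ∂((symP ν).prod w) := by
    intro g
    rw [integral_prod_symm]
    · simp_rw [cexp_symP]
      rw [pavg, integral_complex_ofReal]
    · exact Integrable.of_bound (by unfold field; fun_prop) 1
        (by filter_upwards with p; simp [Complex.norm_exp])
  have h : ∀ g, ((pavg ν w z g ^ n : ℝ) : ℂ) = ∫ q : Fin n → FP × X,
      Complex.exp ((phases q : ℝ) * Complex.I) *
        Complex.exp ((∑ i, g i * ∑ l, (q l).1.1 * z (q l).2 i : ℝ) * Complex.I) ∂(repl ν w n) := by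
    intro g
    rw [Complex.ofReal_pow, hg, ← Fintype.card_fin n, ← integral_fintype_prod_eq_pow,
      Fintype.card_fin]
    refine integral_congr_ae ?_
    filter_upwards with q
    rw [← Complex.exp_sum, ← Complex.exp_add, ← Finset.sum_mul, ← add_mul, ← Complex.ofReal_sum,
      ← Complex.ofReal_add]
    congr 3
    rw [Finset.sum_add_distrib, add_comm, phases]
    congr 1
    unfold field
    simp_rw [Finset.mul_sum]
    rw [Finset.sum_comm]
    exact Finset.sum_congr rfl fun i _ => Finset.sum_congr rfl fun l _ => by ring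
  have key : ((∫ g, pavg ν w z g ^ n ∂(gauss ι) : ℝ) : ℂ)
      = ∫ q, Complex.exp ((phases q : ℝ) * Complex.I) * (Real.exp (-penergy z q) : ℂ) ∂(repl ν w n) := by
    rw [← integral_complex_ofReal]
    simp_rw [h]
    rw [integral_integral_swap]
    · refine integral_congr_ae ?_
      filter_upwards with q
      rw [integral_const_mul, integral_cexp_gauss]
      rfl
    · exact Integrable.of_bound (by unfold Function.uncurry phases; fun_prop) 1
        (by filter_upwards with p; simp [Function.uncurry, Complex.norm_exp])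
  have hre := congrArg RCLike.re key
  rw [← integral_re] at hre
  · simpa [Complex.exp_ofReal_mul_I_re, ← Complex.ofReal_exp] using hre
  · refine Integrable.of_bound (((by unfold phases; fun_prop : Measurable fun q : Fin n → FP × X =>
      Complex.exp ((phases q : ℝ) * Complex.I)).mul
      (Complex.measurable_ofReal.comp
        (Real.measurable_exp.comp (measurable_penergy hz n).neg))).aestronglyMeasurable) 1
      (Filter.Eventually.of_forall fun q => ?_)
    simp only [Function.comp_apply, Pi.neg_apply, Complex.norm_mul, Complex.norm_exp_ofReal_mul_I,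
      Complex.norm_real, Real.norm_eq_abs, Real.abs_exp, one_mul]
    exact Real.exp_le_one_iff.2 (neg_nonpos.2 (energy_nonneg z _))

/-! ### Jensen gaps -/

variable {K : Type} [Fintype K] [DecidableEq K]

/-- The Jensen gap of `exp (-E)`. -/
lemma exp_gap {lam E : K → ℝ} (h0 : ∀ j, 0 ≤ lam j) (h1 : ∑ j, lam j = 1) (hE : ∀ j, 0 ≤ E j) :
    0 ≤ (∑ j, lam j * Real.exp (-E j)) - Real.exp (-∑ j, lam j * E j) ∧
    (∑ j, lam j * Real.exp (-E j)) - Real.exp (-∑ j, lam j * E j)
      ≤ (∑ j, lam j * (E j - ∑ i, lam i * E i) ^ 2) / 2 := by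
  constructor
  · have := convexOn_exp.map_sum_le (t := Finset.univ) (w := lam) (p := fun j => -E j)
      (fun j _ => h0 j) h1 (fun j _ => Set.mem_univ _)
    simpa [Finset.sum_neg_distrib] using this
  · have hc : ConcaveOn ℝ (Set.Ici (0 : ℝ)) fun x => Real.exp (-x) - x ^ 2 / 2 := by
      refine concaveOn_of_deriv2_nonpos' (convex_Ici 0) (by fun_prop) (by fun_prop) ?_
      intro x hx
      have h' : deriv (fun x : ℝ => Real.exp (-x) - x ^ 2 / 2) = fun x => -Real.exp (-x) - x := by
        funext y
        refine HasDerivAt.deriv ?_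
        refine (((hasDerivAt_id y).neg.exp).sub (((hasDerivAt_pow 2 y)).div_const 2)).congr_deriv ?_
        simp
      have h'' : deriv (fun x : ℝ => -Real.exp (-x) - x) x = Real.exp (-x) - 1 := by
        refine HasDerivAt.deriv ?_
        refine (((hasDerivAt_id x).neg.exp.neg).sub (hasDerivAt_id x)).congr_deriv ?_
        simp
      simp only [Function.iterate_succ, Function.iterate_zero, Function.comp_apply, id, h', h'']
      have : Real.exp (-x) ≤ 1 := Real.exp_le_one_iff.2 (neg_nonpos.2 hx)
      linarith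
    have := hc.le_map_sum (t := Finset.univ) (w := lam) (p := E) (fun j _ => h0 j) h1
      (fun j _ => hE j)
    simp only [smul_eq_mul, mul_sub, Finset.sum_sub_distrib] at this
    set m := ∑ i, lam i * E i
    have e : ∑ j, lam j * (E j - m) ^ 2 = (∑ j, lam j * E j ^ 2) - m ^ 2 := by
      have : ∀ j, lam j * (E j - m) ^ 2 = lam j * E j ^ 2 - 2 * m * (lam j * E j) + m ^ 2 * lam j :=
        fun j => by ring
      rw [Finset.sum_congr rfl fun j _ => this j, Finset.sum_add_distrib, Finset.sum_sub_distrib,
        ← Finset.mul_sum, ← Finset.mul_sum, h1]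
      ring
    rw [e]
    have e2 : ∑ j, lam j * (E j ^ 2 / 2) = (∑ j, lam j * E j ^ 2) / 2 := by
      rw [Finset.sum_div]; exact Finset.sum_congr rfl fun j _ => by ring
    linarith

/-- Overlap inside one block. -/
def ov (b : ι → K) (y : X → ι → ℝ) (j : K) (x x' : X) : ℝ :=
  ∑ i, blkC b j y x i * blkC b j y x' i

/-- Weighted variance of the block overlaps. -/
def ovVar (b : ι → K) (lam : K → ℝ) (y : X → ι → ℝ) (x x' : X) : ℝ :=
  ∑ j, lam j * (ov b y j x x' - ∑ i, lam i * ov b y i x x') ^ 2

lemma energy_blk (b : ι → K) (y : X → ι → ℝ) (j : K) {n : ℕ} (q : Fin n → FP × X) :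
    penergy (blkC b j y) q
      = (∑ l, ∑ m, (q l).1.1 * (q m).1.1 * ov b y j (q l).2 (q m).2) / 2 := by
  unfold penergy energy ov
  rw [← Finset.sum_div]
  congr 1
  simp_rw [sq, Finset.sum_mul, Finset.mul_sum]
  rw [Finset.sum_comm]
  refine Finset.sum_congr rfl fun l _ => ?_
  rw [Finset.sum_comm]
  exact Finset.sum_congr rfl fun m _ => Finset.sum_congr rfl fun i _ => by ring

lemma energy_var (b : ι → K) {lam : K → ℝ} (h0 : ∀ j, 0 ≤ lam j) (y : X → ι → ℝ) {n : ℕ}
    (q : Fin n → FP × X) :
    ∑ j, lam j * (penergy (blkC b j y) q - ∑ i, lam i * penergy (blkC b i y) q) ^ 2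
      ≤ (n : ℝ) ^ 2 / 4 * ∑ l, ∑ m, (q l).1.1 ^ 2 * (q m).1.1 ^ 2 * ovVar b lam y (q l).2 (q m).2 := by
  set d : K → Fin n × Fin n → ℝ := fun j p => (q p.1).1.1 * (q p.2).1.1 *
    (ov b y j (q p.1).2 (q p.2).2 - ∑ i, lam i * ov b y i (q p.1).2 (q p.2).2) with hd
  have he : ∀ j, penergy (blkC b j y) q - ∑ i, lam i * penergy (blkC b i y) q
      = (∑ p, d j p) / 2 := by
    intro j
    simp only [energy_blk, hd, Fintype.sum_prod_type, mul_sub, Finset.sum_sub_distrib, sub_div]
    congr 1
    simp only [Finset.sum_div, Finset.mul_sum]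
    rw [Finset.sum_comm]
    refine Finset.sum_congr rfl fun l _ => ?_
    rw [Finset.sum_comm]
    exact Finset.sum_congr rfl fun m _ => Finset.sum_congr rfl fun i _ => by ring
  calc ∑ j, lam j * (penergy (blkC b j y) q - ∑ i, lam i * penergy (blkC b i y) q) ^ 2
      ≤ ∑ j, lam j * ((n : ℝ) ^ 2 / 4 * ∑ p, d j p ^ 2) := by
        refine Finset.sum_le_sum fun j _ => mul_le_mul_of_nonneg_left ?_ (h0 j)
        rw [he]
        have := sq_sum_le_card_mul_sum_sq (s := (Finset.univ : Finset (Fin n × Fin n))) (f := d j)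
        simp only [Finset.card_univ, Fintype.card_prod, Fintype.card_fin, Nat.cast_mul] at this
        nlinarith
    _ = (n : ℝ) ^ 2 / 4 * ∑ p : Fin n × Fin n, ∑ j, lam j * d j p ^ 2 := by
        rw [Finset.sum_comm, Finset.mul_sum]
        refine Finset.sum_congr rfl fun j _ => ?_
        rw [← Finset.mul_sum]; ring
    _ = _ := by
        congr 1
        rw [Fintype.sum_prod_type]
        refine Finset.sum_congr rfl fun l _ => Finset.sum_congr rfl fun m _ => ?_
        unfold ovVar
        rw [Finset.mul_sum]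
        exact Finset.sum_congr rfl fun j _ => by simp only [hd]; ring

end Vale.Agent.P157
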