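import Vale.Agent.P157.Phase

/-!
The second order term: strong convexity in the overlap.
-/

namespace Vale.Agent.P157

open MeasureTheory ProbabilityTheory Real

variable (ν : Measure FP) [IsProbabilityMeasure ν]

/-- Integrand of the two replica moment at overlap `r`. -/
noncomputable def two (p : FP × FP) (r : ℝ) : ℝ :=
  Real.cos (p.1.2 + p.2.2) * Real.exp (-((p.1.1 ^ 2 + p.2.1 ^ 2) / 2 + p.1.1 * p.2.1 * r))

/-- The two replica moment at overlap `r`. -/
noncomputable def moment2 (r : ℝ) : ℝ := ∫ p, two p r ∂((symP ν).prod (symP ν))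

/-- Its second derivative in the overlap. -/
noncomputable def curv (r : ℝ) : ℝ :=
  ∫ p, (p.1.1 * p.2.1) ^ 2 * two p r ∂((symP ν).prod (symP ν))

lemma two_expo_nonneg (ξ η r : ℝ) (hr : r ∈ Set.Icc (-1 : ℝ) 1) :
    0 ≤ (ξ ^ 2 + η ^ 2) / 2 + ξ * η * r := by
  obtain ⟨h1, h2⟩ := hr
  nlinarith [mul_nonneg (sub_nonneg.2 h2) (sq_nonneg (ξ - η)),
    mul_nonneg (by linarith : (0:ℝ) ≤ 1 + r) (sq_nonneg (ξ + η))]

lemma abs_two_le (p : FP × FP) {r : ℝ} (hr : r ∈ Set.Icc (-1 : ℝ) 1) : |two p r| ≤ 1 := by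
  rw [two, abs_mul, Real.abs_exp]
  exact mul_le_one₀ (Real.abs_cos_le_one _) (Real.exp_pos _).le
    (Real.exp_le_one_iff.2 (neg_nonpos.2 (two_expo_nonneg _ _ r hr)))

lemma abs_mul_le_one_add (x : ℝ) : |x| ≤ 1 + x ^ 2 := by
  nlinarith [sq_nonneg (|x| - 1), sq_abs x, abs_nonneg x]

/-- The second moment of the frequencies. -/
noncomputable def msq : ℝ := ∫ p, p.1 ^ 2 ∂(symP ν)

variable {ν}

lemma integrable_sq_symP (h : Integrable (fun p : FP => p.1 ^ 2) ν) :
    Integrable (fun p : FP => p.1 ^ 2) (symP ν) := by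
  rw [symP]
  refine Integrable.add_measure h.smul_measure_nnreal (Integrable.smul_measure_nnreal ?_)
  refine (integrable_map_measure (by fun_prop) (by fun_prop)).2 ?_
  exact h.congr (Filter.Eventually.of_forall fun p => by simp)

lemma integrable_weight (h : Integrable (fun p : FP => p.1 ^ 2) ν) :
    Integrable (fun p : FP × FP => (p.1.1 * p.2.1) ^ 2) ((symP ν).prod (symP ν)) :=
  ((integrable_sq_symP h).mul_prod (integrable_sq_symP h)).congr
    (Filter.Eventually.of_forall fun p => by ring)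

lemma continuousOn_moment2 : ContinuousOn (moment2 ν) (Set.Icc (-1 : ℝ) 1) := by
  refine continuousOn_of_dominated (bound := fun _ => (1 : ℝ)) (fun r _ => by unfold two; fun_prop)
    (fun r hr => Filter.Eventually.of_forall fun p => ?_) (integrable_const _)
    (Filter.Eventually.of_forall fun p => by unfold two; fun_prop)
  simpa using abs_two_le p hr

lemma hasDerivAt_moment2 (h : Integrable (fun p : FP => p.1 ^ 2) ν) {r : ℝ}
    (hr : r ∈ Set.Ioo (-1 : ℝ) 1) :
    HasDerivAt (moment2 ν) (∫ p, -(p.1.1 * p.2.1) * two p r ∂((symP ν).prod (symP ν))) r ∧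
    HasDerivAt (fun s => ∫ p, -(p.1.1 * p.2.1) * two p s ∂((symP ν).prod (symP ν))) (curv ν r) r := by
  have hd : ∀ (p : FP × FP) (s : ℝ), HasDerivAt (two p) (-(p.1.1 * p.2.1) * two p s) s := by
    intro p s
    refine (((((hasDerivAt_id s).const_mul (p.1.1 * p.2.1)).const_add
      ((p.1.1 ^ 2 + p.2.1 ^ 2) / 2)).neg.exp).const_mul (Real.cos (p.1.2 + p.2.2))).congr_deriv ?_
    simp only [two, id, mul_one, Pi.neg_apply]
    ring
  have hs : Set.Ioo (-1 : ℝ) 1 ∈ nhds r := isOpen_Ioo.mem_nhds hr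
  have hb : ∀ (p : FP × FP) (s : ℝ), s ∈ Set.Ioo (-1 : ℝ) 1 →
      |-(p.1.1 * p.2.1) * two p s| ≤ 1 + (p.1.1 * p.2.1) ^ 2 := fun p s hs' => by
    rw [abs_mul, abs_neg]
    exact (mul_le_of_le_one_right (abs_nonneg _) (abs_two_le p ⟨hs'.1.le, hs'.2.le⟩)).trans
      (abs_mul_le_one_add _)
  have hi := (integrable_const (1 : ℝ)).add (integrable_weight h)
  have hm : ∀ s, AEStronglyMeasurable (fun p => -(p.1.1 * p.2.1) * two p s)
      ((symP ν).prod (symP ν)) := fun s => by unfold two; fun_prop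
  constructor
  · exact (hasDerivAt_integral_of_dominated_loc_of_deriv_le hs
      (F := fun s p => two p s) (F' := fun s p => -(p.1.1 * p.2.1) * two p s)
      (Filter.Eventually.of_forall fun s => by unfold two; fun_prop)
      (Integrable.of_bound (by unfold two; fun_prop) 1
        (Filter.Eventually.of_forall fun p => by simpa using abs_two_le p ⟨hr.1.le, hr.2.le⟩))
      (hm r) (Filter.Eventually.of_forall fun p s hs' => by simpa using hb p s hs') hi
      (Filter.Eventually.of_forall fun p s _ => hd p s)).2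
  · have := (hasDerivAt_integral_of_dominated_loc_of_deriv_le hs
      (F := fun s p => -(p.1.1 * p.2.1) * two p s)
      (F' := fun s p => (p.1.1 * p.2.1) ^ 2 * two p s)
      (Filter.Eventually.of_forall hm)
      (Integrable.mono' hi (hm r) (Filter.Eventually.of_forall fun p => by simpa using hb p r hr))
      (by unfold two; fun_prop)
      (Filter.Eventually.of_forall fun p s hs' => by
        rw [Real.norm_eq_abs, abs_mul, abs_sq]
        exact mul_le_of_le_one_right (sq_nonneg _) (abs_two_le p ⟨hs'.1.le, hs'.2.le⟩))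
      (integrable_weight h)
      (Filter.Eventually.of_forall fun p s _ => ((hd p s).const_mul _).congr_deriv (by ring))).2
    exact this

lemma convexOn_moment2 (h : Integrable (fun p : FP => p.1 ^ 2) ν) {δ : ℝ}
    (hδ : ∀ r ∈ Set.Icc (-1 : ℝ) 1, δ ≤ curv ν r) :
    ConvexOn ℝ (Set.Icc (-1 : ℝ) 1) fun r => moment2 ν r - δ / 2 * r ^ 2 := by
  have h1 : ∀ x ∈ interior (Set.Icc (-1 : ℝ) 1), HasDerivAt (fun r => moment2 ν r - δ / 2 * r ^ 2)
      ((∫ p, -(p.1.1 * p.2.1) * two p x ∂((symP ν).prod (symP ν))) - δ * x) x := by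
    intro x hx
    rw [interior_Icc] at hx
    refine ((hasDerivAt_moment2 h hx).1.sub ((hasDerivAt_pow 2 x).const_mul (δ / 2))).congr_deriv ?_
    push_cast; ring
  refine convexOn_of_hasDerivWithinAt2_nonneg (convex_Icc _ _)
    (continuousOn_moment2.sub (by fun_prop))
    (f' := fun x => (∫ p, -(p.1.1 * p.2.1) * two p x ∂((symP ν).prod (symP ν))) - δ * x)
    (f'' := fun x => curv ν x - δ)
    (fun x hx => (h1 x hx).hasDerivWithinAt) (fun x hx => ?_) (fun x hx => ?_)
  · rw [interior_Icc] at hx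
    exact (((hasDerivAt_moment2 h hx).2.sub ((hasDerivAt_id x).const_mul δ)).congr_deriv
      (by simp)).hasDerivWithinAt
  · rw [interior_Icc] at hx
    linarith [hδ x ⟨hx.1.le, hx.2.le⟩]

variable {X : Type} [MeasurableSpace X] {ι : Type} [Fintype ι] {K : Type} [Fintype K]
  [DecidableEq K]

lemma abs_ov_le {b : ι → K} {y : X → ι → ℝ} {j : K} {x x' : X}
    (hx : ∑ i, blkC b j y x i ^ 2 = 1) (hx' : ∑ i, blkC b j y x' i ^ 2 = 1) :
    ov b y j x x' ∈ Set.Icc (-1 : ℝ) 1 := by
  have := Finset.sum_mul_sq_le_sq_mul_sq Finset.univ (blkC b j y x) (blkC b j y x')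
  rw [hx, hx', one_mul] at this
  exact Set.mem_Icc.2 (abs_le.1 ((sq_le_one_iff_abs_le_one _).1 this))

/-- Unit blocks at a pair of configurations. -/
def UnitAt (b : ι → K) (lam : K → ℝ) (y : X → ι → ℝ) (x : X) : Prop :=
  ∀ j, lam j ≠ 0 → ∑ i, blkC b j y x i ^ 2 = 1

/-- Strong convexity along the blocks. -/
lemma pair_gap (h : Integrable (fun p : FP => p.1 ^ 2) ν) {δ : ℝ}
    (hδ : ∀ r ∈ Set.Icc (-1 : ℝ) 1, δ ≤ curv ν r) (b : ι → K) {lam : K → ℝ}
    (h0 : ∀ j, 0 ≤ lam j) (h1 : ∑ j, lam j = 1) (y : X → ι → ℝ) {x x' : X}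
    (hx : UnitAt b lam y x) (hx' : UnitAt b lam y x') :
    δ / 2 * ovVar b lam y x x'
      ≤ (∑ j, lam j * moment2 ν (ov b y j x x')) - moment2 ν (∑ j, lam j * ov b y j x x') := by
  set q := fun j => ov b y j x x' with hq
  set S := Finset.univ.filter fun j => lam j ≠ 0 with hS
  have hout : ∀ (f : K → ℝ), ∑ j ∈ S, lam j * f j = ∑ j, lam j * f j := fun f => by
    refine Finset.sum_subset (Finset.filter_subset _ _) fun j _ hj => ?_
    simp only [hS, Finset.mem_filter, Finset.mem_univ, true_and, not_not] at hj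
    rw [hj, zero_mul]
  have hs1 : ∑ j ∈ S, lam j = 1 := by
    have := hout fun _ => 1
    simpa [h1] using this
  have H := (convexOn_moment2 h hδ).map_sum_le (t := S) (w := lam) (p := q) (fun j _ => h0 j) hs1
    (fun j hj => by
      have hj' : lam j ≠ 0 := (Finset.mem_filter.1 hj).2
      exact abs_ov_le (hx j hj') (hx' j hj'))
  simp only [smul_eq_mul, hout] at H
  set m := ∑ j, lam j * q j
  have e : ovVar b lam y x x' = (∑ j, lam j * q j ^ 2) - m ^ 2 := by
    have : ∀ j, lam j * (q j - m) ^ 2 = lam j * q j ^ 2 - 2 * m * (lam j * q j) + m ^ 2 * lam j :=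
      fun j => by ring
    rw [ovVar, Finset.sum_congr rfl fun j _ => this j, Finset.sum_add_distrib,
      Finset.sum_sub_distrib, ← Finset.mul_sum, ← Finset.mul_sum, h1]
    ring
  have e2 : ∑ j, lam j * (moment2 ν (q j) - δ / 2 * q j ^ 2)
      = (∑ j, lam j * moment2 ν (q j)) - δ / 2 * ∑ j, lam j * q j ^ 2 := by
    rw [Finset.mul_sum, ← Finset.sum_sub_distrib]
    exact Finset.sum_congr rfl fun j _ => by ring
  rw [e, mul_sub]
  linarith

lemma mp_symP_neg : MeasurePreserving (fun p : FP => -p) (symP ν) (symP ν) := by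
  refine ⟨measurable_neg, ?_⟩
  simp only [symP, Measure.map_add _ _ measurable_neg, Measure.map_smul,
    Measure.map_map measurable_neg measurable_neg]
  have : ((fun p : FP => -p) ∘ fun p : FP => -p) = id := by funext p; simp
  rw [this, Measure.map_id, add_comm]

lemma symP_sin (heven : ∀ᵐ p ∂ν, Real.sin p.2 = 0) : ∀ᵐ p ∂(symP ν), Real.sin p.2 = 0 := by
  simp only [symP, ae_add_measure_iff]
  refine ⟨Measure.ae_smul_measure heven _, Measure.ae_smul_measure ?_ _⟩
  rw [ae_map_iff (by fun_prop) (measurableSet_eq_fun (by fun_prop) measurable_const)]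
  filter_upwards [heven] with p hp
  simp [hp]

/-- The even weight. -/
noncomputable def cw (p : FP) : ℝ := Real.cos p.2 * p.1 ^ 2 * Real.exp (-p.1 ^ 2 / 2)

lemma continuous_cw : Continuous cw := by unfold cw; fun_prop

lemma cw_neg (p : FP) : cw (-p) = cw p := by simp [cw]

lemma abs_cw_le (p : FP) : |cw p| ≤ p.1 ^ 2 := by
  rw [cw, abs_mul, abs_mul, abs_sq, Real.abs_exp]
  have h1 : Real.exp (-p.1 ^ 2 / 2) ≤ 1 := Real.exp_le_one_iff.2 (by nlinarith [sq_nonneg p.1])
  exact (mul_le_of_le_one_right (by positivity) h1).trans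
    (mul_le_of_le_one_left (sq_nonneg _) (Real.abs_cos_le_one _))

lemma integral_cw_symP (h : Integrable (fun p : FP => p.1 ^ 2) ν) :
    ∫ p, cw p ∂(symP ν) = ∫ p, cw p ∂ν := by
  have hi : Integrable cw ν := Integrable.mono' h continuous_cw.aestronglyMeasurable
    (Filter.Eventually.of_forall fun p => by rw [Real.norm_eq_abs]; exact abs_cw_le p)
  rw [integral_symP ν continuous_cw hi (by simp only [cw_neg]; exact hi)]
  simp only [cw_neg, smul_eq_mul]
  ring

lemma curv_integrable (h : Integrable (fun p : FP => p.1 ^ 2) ν) {t : ℝ}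
    (ht : t ∈ Set.Icc (-1 : ℝ) 1) :
    Integrable (fun p : FP × FP => (p.1.1 * p.2.1) ^ 2 * two p t) ((symP ν).prod (symP ν)) :=
  Integrable.mono' (integrable_weight h) (by unfold two; fun_prop)
    (Filter.Eventually.of_forall fun p => by
      rw [Real.norm_eq_abs, abs_mul, abs_sq]
      exact mul_le_of_le_one_right (sq_nonneg _) (abs_two_le p ht))

lemma neg_mem_Icc {r : ℝ} (hr : r ∈ Set.Icc (-1 : ℝ) 1) : -r ∈ Set.Icc (-1 : ℝ) 1 := by
  obtain ⟨a, b⟩ := hr
  constructor <;> linarith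

lemma curv_flip (heven : ∀ᵐ p ∂ν, Real.sin p.2 = 0) (r : ℝ) :
    curv ν r = curv ν (-r) := by
  have hmp := (MeasurePreserving.id (symP ν)).prod (mp_symP_neg (ν := ν))
  rw [curv, curv]
  conv_lhs => rw [← hmp.map_eq]
  rw [integral_map hmp.measurable.aemeasurable (by unfold two; fun_prop)]
  refine integral_congr_ae ?_
  filter_upwards [(Measure.quasiMeasurePreserving_fst).ae (symP_sin heven),
    (Measure.quasiMeasurePreserving_snd).ae (symP_sin heven)] with p h1 h2
  simp only [Prod.map_fst, Prod.map_snd, id, Prod.fst_neg, Prod.snd_neg, two, ← sub_eq_add_neg,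
    Real.cos_sub, Real.cos_add, h1, h2]
  ring_nf

lemma curv_cosh (h : Integrable (fun p : FP => p.1 ^ 2) ν) (heven : ∀ᵐ p ∂ν, Real.sin p.2 = 0)
    {r : ℝ} (hr : r ∈ Set.Icc (-1 : ℝ) 1) :
    curv ν r = ∫ p : FP × FP, cw p.1 * cw p.2 * Real.cosh (p.1.1 * p.2.1 * r)
      ∂((symP ν).prod (symP ν)) := by
  have h3 : 2 * curv ν r = ∫ p, ((p.1.1 * p.2.1) ^ 2 * two p r + (p.1.1 * p.2.1) ^ 2 * two p (-r))
      ∂((symP ν).prod (symP ν)) := by
    rw [integral_add (curv_integrable h hr) (curv_integrable h (neg_mem_Icc hr))]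
    have := curv_flip heven r
    simp only [curv] at this ⊢
    linarith
  have h2 : ∀ᵐ p ∂((symP ν).prod (symP ν)),
      ((p.1.1 * p.2.1) ^ 2 * two p r + (p.1.1 * p.2.1) ^ 2 * two p (-r))
        = 2 * (cw p.1 * cw p.2 * Real.cosh (p.1.1 * p.2.1 * r)) := by
    filter_upwards [(Measure.quasiMeasurePreserving_fst).ae (symP_sin heven)] with p hp
    simp only [two, cw, Real.cos_add, hp, Real.cosh_eq, zero_mul, sub_zero]
    rw [show -((p.1.1 ^ 2 + p.2.1 ^ 2) / 2 + p.1.1 * p.2.1 * r)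
        = -p.1.1 ^ 2 / 2 + -p.2.1 ^ 2 / 2 + -(p.1.1 * p.2.1 * r) by ring,
      show -((p.1.1 ^ 2 + p.2.1 ^ 2) / 2 + p.1.1 * p.2.1 * -r)
        = -p.1.1 ^ 2 / 2 + -p.2.1 ^ 2 / 2 + p.1.1 * p.2.1 * r by ring,
      Real.exp_add, Real.exp_add, Real.exp_add, Real.exp_add]
    ring
  rw [integral_congr_ae h2, integral_const_mul] at h3
  linarith

lemma cosh_dom {r : ℝ} (hr : r ∈ Set.Icc (-1 : ℝ) 1) (p : FP × FP) :
    |cw p.1 * cw p.2| * Real.cosh (p.1.1 * p.2.1 * r) ≤ (p.1.1 * p.2.1) ^ 2 := by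
  have hh : |Real.cos p.1.2| * |Real.cos p.2.2| ≤ 1 :=
    mul_le_one₀ (Real.abs_cos_le_one _) (abs_nonneg _) (Real.abs_cos_le_one _)
  have a := two_expo_nonneg p.1.1 p.2.1 r hr
  have b := two_expo_nonneg p.1.1 p.2.1 (-r) (neg_mem_Icc hr)
  have hk : Real.exp (-p.1.1 ^ 2 / 2) * Real.exp (-p.2.1 ^ 2 / 2)
      * Real.cosh (p.1.1 * p.2.1 * r) ≤ 1 := by
    have h1 := Real.exp_le_one_iff.2
      (show -p.1.1 ^ 2 / 2 + -p.2.1 ^ 2 / 2 + p.1.1 * p.2.1 * r ≤ 0 by linarith)
    have h2 := Real.exp_le_one_iff.2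
      (show -p.1.1 ^ 2 / 2 + -p.2.1 ^ 2 / 2 + -(p.1.1 * p.2.1 * r) ≤ 0 by linarith)
    rw [Real.exp_add, Real.exp_add] at h1 h2
    rw [Real.cosh_eq, mul_div_assoc', mul_add]
    linarith
  simp only [cw, abs_mul, abs_sq, Real.abs_exp]
  calc |Real.cos p.1.2| * p.1.1 ^ 2 * Real.exp (-p.1.1 ^ 2 / 2)
        * (|Real.cos p.2.2| * p.2.1 ^ 2 * Real.exp (-p.2.1 ^ 2 / 2))
        * Real.cosh (p.1.1 * p.2.1 * r)
      = (|Real.cos p.1.2| * |Real.cos p.2.2|) * (p.1.1 * p.2.1) ^ 2
          * (Real.exp (-p.1.1 ^ 2 / 2) * Real.exp (-p.2.1 ^ 2 / 2)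
            * Real.cosh (p.1.1 * p.2.1 * r)) := by ring
    _ ≤ 1 * (p.1.1 * p.2.1) ^ 2 * 1 :=
        mul_le_mul (mul_le_mul_of_nonneg_right hh (sq_nonneg _)) hk
          (by positivity) (by positivity)
    _ = _ := by ring

/-- Expanding a hyperbolic cosine under an integral. -/
lemma hasSum_integral_cosh {α : Type} [MeasurableSpace α] {μ : Measure α} {a x W : α → ℝ}
    (ha : Measurable a) (hx : Measurable x) (hW : Integrable W μ)
    (hb : ∀ p, |a p| * Real.cosh (x p) ≤ W p) :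
    HasSum (fun k : ℕ => ∫ p, a p * (x p ^ (2 * k) / (2 * k).factorial) ∂μ)
      (∫ p, a p * Real.cosh (x p) ∂μ) := by
  have hpow : ∀ (t : ℝ) (k : ℕ), 0 ≤ t ^ (2 * k) / ((2 * k).factorial : ℝ) := fun t k =>
    div_nonneg (by rw [pow_mul]; positivity) (Nat.cast_nonneg _)
  have hF : ∀ k : ℕ, AEStronglyMeasurable
      (fun p => a p * (x p ^ (2 * k) / ((2 * k).factorial : ℝ))) μ := fun k =>
    (ha.mul ((hx.pow_const _).div_const _)).aestronglyMeasurable
  have hsum : ∀ p, HasSum (fun k : ℕ => |a p| * (x p ^ (2 * k) / ((2 * k).factorial : ℝ)))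
      (|a p| * Real.cosh (x p)) := fun p => (Real.hasSum_cosh (x p)).mul_left |a p|
  have hm : AEStronglyMeasurable (fun p => |a p| * Real.cosh (x p)) μ :=
    ((continuous_abs.measurable.comp ha).mul
      (Real.continuous_cosh.measurable.comp hx)).aestronglyMeasurable
  have hint : Integrable (fun p => |a p| * Real.cosh (x p)) μ :=
    Integrable.mono' hW hm (Filter.Eventually.of_forall fun p => by
      rw [Real.norm_eq_abs, abs_of_nonneg (mul_nonneg (abs_nonneg _) (Real.cosh_pos _).le)]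
      exact hb p)
  refine hasSum_integral_of_dominated_convergence
    (fun k p => |a p| * (x p ^ (2 * k) / ((2 * k).factorial : ℝ))) hF
    (fun k => Filter.Eventually.of_forall fun p => ?_)
    (Filter.Eventually.of_forall fun p => (hsum p).summable) ?_
    (Filter.Eventually.of_forall fun p => (Real.hasSum_cosh (x p)).mul_left (a p))
  · rw [Real.norm_eq_abs, abs_mul, abs_of_nonneg (hpow _ k)]
  · exact hint.congr (Filter.Eventually.of_forall fun p => ((hsum p).tsum_eq).symm)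

/-- For even transforms the curvature is at least the square of the Gaussian mean of the second
derivative. -/
lemma curv_even_ge (h : Integrable (fun p : FP => p.1 ^ 2) ν) (heven : ∀ᵐ p ∂ν, Real.sin p.2 = 0)
    {r : ℝ} (hr : r ∈ Set.Icc (-1 : ℝ) 1) :
    (∫ p, Real.cos p.2 * p.1 ^ 2 * Real.exp (-p.1 ^ 2 / 2) ∂ν) ^ 2 ≤ curv ν r := by
  change (∫ p, cw p ∂ν) ^ 2 ≤ _
  have ha : Measurable fun p : FP × FP => cw p.1 * cw p.2 :=
    (continuous_cw.measurable.comp measurable_fst).mul (continuous_cw.measurable.comp measurable_snd)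
  have hx : Measurable fun p : FP × FP => p.1.1 * p.2.1 * r :=
    ((measurable_fst.comp measurable_fst).mul (measurable_fst.comp measurable_snd)).mul_const r
  have H := hasSum_integral_cosh (μ := (symP ν).prod (symP ν)) ha hx (integrable_weight h)
    (cosh_dom hr)
  have e : ∀ k : ℕ,
      ∫ p : FP × FP, cw p.1 * cw p.2 * ((p.1.1 * p.2.1 * r) ^ (2 * k) / (2 * k).factorial)
        ∂((symP ν).prod (symP ν))
      = r ^ (2 * k) / (2 * k).factorial * (∫ p, cw p * p.1 ^ (2 * k) ∂(symP ν)) ^ 2 := by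
    intro k
    rw [sq, ← integral_prod_mul (fun p : FP => cw p * p.1 ^ (2 * k))
      (fun p : FP => cw p * p.1 ^ (2 * k)), ← integral_const_mul]
    refine integral_congr_ae (Filter.Eventually.of_forall fun p => ?_)
    simp only [mul_pow]
    ring
  have hfirst := le_hasSum H 0 fun k _ => by
    rw [e]
    exact mul_nonneg (div_nonneg (by rw [pow_mul]; positivity) (Nat.cast_nonneg _)) (sq_nonneg _)
  rw [e 0] at hfirst
  simp only [Nat.mul_zero, pow_zero, Nat.factorial_zero, Nat.cast_one, div_one, one_mul, mul_one,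
    integral_cw_symP h] at hfirst
  rw [curv_cosh h heven hr]
  exact hfirst

end Vale.Agent.P157
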