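import Vale.Agent.P157.Weak

/-!
The potentials `log (1 + ε ∫ cos (ξ t + θ) dν)` for small `ε`.
-/

namespace Vale.Agent.P157

open MeasureTheory ProbabilityTheory Real Filter

variable {ν : Measure FP} [IsProbabilityMeasure ν]

section prob

variable {X : Type} [MeasurableSpace X] {ι : Type} [Fintype ι] {K : Type} [Fintype K]
  [DecidableEq K] {w : Measure X} [IsProbabilityMeasure w]
variable {b : ι → K} {lam : K → ℝ} {y : X → ι → ℝ}

/-- The first order gap vanishes. -/
lemma mgap_one (h0 : ∀ j, 0 ≤ lam j) (h1 : ∑ j, lam j = 1) (hy : Measurable y)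
    (hun : UnitBlk b lam y w) : mgap w b ν lam y 1 = 0 := by
  rw [(mgap_eq (ν := ν) (w := w) h0 hy 1).2]
  refine integral_eq_zero_of_ae ?_
  filter_upwards [ae_repl hun 1] with q hq
  set c := (q 0).1.1 * (q 0).1.1 / 2 with hc
  have he : ∀ j, lam j ≠ 0 → penergy (blkC b j y) q = c := by
    intro j hj
    have h00 : ov b y j (q 0).2 (q 0).2 = 1 := by simpa [ov, ← sq] using hq 0 j hj
    rw [energy_blk, Fin.sum_univ_one, Fin.sum_univ_one, h00, mul_one, hc]
  have e1 : ∀ j, lam j * Real.exp (-penergy (blkC b j y) q) = lam j * Real.exp (-c) := by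
    intro j
    by_cases hj : lam j = 0
    · simp [hj]
    · rw [he j hj]
  have e2 : ∀ j, lam j * penergy (blkC b j y) q = lam j * c := by
    intro j
    by_cases hj : lam j = 0
    · simp [hj]
    · rw [he j hj]
  simp only [Pi.zero_apply, kgap, e1, e2, ← Finset.sum_mul, h1, one_mul, sub_self, mul_zero]

/-- The series of the averaged logarithm. -/
lemma hasSum_log_pavg {ε : ℝ} (hε : |ε| < 1) {z : X → ι → ℝ} (hz : Measurable z) :
    HasSum (fun n : ℕ => (-ε) ^ (n + 1) / (n + 1) * ∫ g, pavg ν w z g ^ (n + 1) ∂(gauss ι))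
      (-∫ g, Real.log (1 + ε * pavg ν w z g) ∂(gauss ι)) := by
  have hA := abs_pavg_le ν w z
  have hx : ∀ g, |-ε * pavg ν w z g| ≤ |ε| := fun g => by
    rw [abs_mul, abs_neg]
    exact mul_le_of_le_one_right (abs_nonneg _) (hA g)
  rw [← integral_neg]
  have H := hasSum_integral_of_dominated_convergence (μ := gauss ι)
    (F := fun (n : ℕ) g => (-ε * pavg ν w z g) ^ (n + 1) / ((n : ℝ) + 1))
    (f := fun g => -Real.log (1 + ε * pavg ν w z g))
    (fun (n : ℕ) _ => |ε| ^ (n + 1))
    (fun n => ((((measurable_pavg ν w hz).const_mul (-ε)).pow_const _).div_const _).aestronglyMeasurable)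
    (fun n => Eventually.of_forall fun g => by
      rw [norm_div, norm_pow, Real.norm_eq_abs, Real.norm_eq_abs,
        abs_of_pos (by positivity : (0:ℝ) < (n:ℝ) + 1)]
      exact (div_le_self (by positivity) (by simp)).trans
        (pow_le_pow_left₀ (abs_nonneg _) (hx g) _))
    (Eventually.of_forall fun _ =>
      (summable_nat_add_iff 1).2 (summable_geometric_of_lt_one (abs_nonneg _) hε))
    (integrable_const _)
    (Eventually.of_forall fun g => by
      simpa [neg_mul, sub_neg_eq_add] using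
        Real.hasSum_pow_div_log_of_abs_lt_one ((hx g).trans_lt hε))
  refine H.congr_fun fun n => ?_
  rw [← integral_const_mul]
  refine integral_congr_ae (Eventually.of_forall fun g => ?_)
  simp only [mul_pow]
  ring

/-- The constant of the tail. -/
noncomputable def tailC : ℝ := ∑' n : ℕ, ((n : ℝ) + 3) ^ 3 * (1 / 2) ^ n

lemma hasSum_tailC : HasSum (fun n : ℕ => ((n : ℝ) + 3) ^ 3 * (1 / 2) ^ n) tailC := by
  refine Summable.hasSum ?_
  have h := ((summable_nat_add_iff 3).2 (summable_pow_mul_geometric_of_norm_lt_one (R := ℝ) 3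
    (r := 1 / 2) (by norm_num))).mul_left 8
  refine h.congr fun n => ?_
  push_cast
  ring

lemma tailC_nonneg : 0 ≤ tailC := tsum_nonneg fun n => by positivity

/-- Range of the amplitudes. -/
noncomputable def eps0 (ν : Measure FP) [IsProbabilityMeasure ν] (δ : ℝ) : ℝ :=
  min (1 / 2) (δ / (msq ν ^ 2 * tailC + 1))

lemma eps0_pos {δ : ℝ} (hδ : 0 < δ) : 0 < eps0 ν δ :=
  lt_min one_half_pos (div_pos hδ (by positivity [tailC_nonneg]))

/-- One pattern, probability weight. -/
lemma one_weak_prob (hν : Integrable (fun p : FP => p.1 ^ 2) ν) {δ : ℝ} (hδ0 : 0 < δ)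
    (hδ : ∀ r ∈ Set.Icc (-1 : ℝ) 1, δ ≤ curv ν r) {ε : ℝ} (hε : |ε| ≤ eps0 ν δ)
    (h0 : ∀ j, 0 ≤ lam j) (h1 : ∑ j, lam j = 1) (hy : Measurable y) (hun : UnitBlk b lam y w) :
    ∑ j, lam j * ∫ g, Real.log (1 + ε * pavg ν w (blkC b j y) g) ∂(gauss ι)
      ≤ ∫ g, Real.log (1 + ε * pavg ν w (mixC b lam y) g) ∂(gauss ι) := by
  obtain ⟨hh, hq⟩ := le_min_iff.1 hε
  have hε1 : |ε| < 1 := by linarith
  set V := wvar w b lam y
  have hV : 0 ≤ V := wvar_nonneg h0 h1 hun
  set M := msq ν ^ 2
  have hM : 0 ≤ M := sq_nonneg _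
  have hMS : |ε| * (M * tailC) ≤ δ := by
    have := (le_div_iff₀ (by positivity [tailC_nonneg])).1 hq
    linarith [abs_nonneg ε]
  have HR := hasSum_sum (s := Finset.univ) fun j _ =>
    (hasSum_log_pavg (ν := ν) (w := w) hε1 (measurable_blkC b j hy)).mul_left (lam j)
  have HL := hasSum_log_pavg (ν := ν) (w := w) hε1 (measurable_mixC b lam hy)
  have H : HasSum (fun n : ℕ => (-ε) ^ (n + 1) / (n + 1) * mgap w b ν lam y (n + 1))
      ((∫ g, Real.log (1 + ε * pavg ν w (mixC b lam y) g) ∂(gauss ι))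
        - ∑ j, lam j * ∫ g, Real.log (1 + ε * pavg ν w (blkC b j y) g) ∂(gauss ι)) := by
    have h := HR.sub HL
    simp only [mul_neg, Finset.sum_neg_distrib, neg_sub_neg] at h
    refine h.congr_fun fun n => ?_
    rw [mgap, mul_sub, Finset.mul_sum]
    congr 1
    exact Finset.sum_congr rfl fun j _ => by ring
  have Ht := (hasSum_nat_add_iff' 2).2 H
  have hB := (hasSum_tailC.mul_left (|ε| ^ 3 * M * V / 8)).neg
  have hle := hasSum_le (fun n => ?_) hB Ht
  · have e1 := mgap_one (ν := ν) h0 h1 hy hun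
    have e2 := mgap_two hν hδ h0 h1 hy hun
    rw [Finset.sum_range_succ, Finset.sum_range_one] at hle
    norm_num [e1] at hle
    have f1 : ε ^ 2 / 2 * (δ / 2 * V) ≤ ε ^ 2 / 2 * mgap w b ν lam y 2 :=
      mul_le_mul_of_nonneg_left e2 (by positivity)
    have f2 : |ε| ^ 3 * M * V / 8 * tailC ≤ ε ^ 2 * V * δ / 8 := by
      calc |ε| ^ 3 * M * V / 8 * tailC = |ε| ^ 2 * V / 8 * (|ε| * (M * tailC)) := by ring
        _ ≤ |ε| ^ 2 * V / 8 * δ := mul_le_mul_of_nonneg_left hMS (by positivity)
        _ = _ := by rw [sq_abs]; ring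
    nlinarith [mul_nonneg (mul_nonneg (sq_nonneg ε) hV) hδ0.le]
  · have hb := abs_mgap_le (ν := ν) hν h0 h1 hy hun (n + 2 + 1)
    refine (neg_le_neg ?_).trans (neg_abs_le _)
    rw [abs_mul, abs_div, abs_pow, abs_neg,
      abs_of_pos (by positivity : (0:ℝ) < ((n + 2 : ℕ) : ℝ) + 1)]
    have hp : |ε| ^ n ≤ (1 / 2 : ℝ) ^ n := pow_le_pow_left₀ (abs_nonneg _) hh _
    calc |ε| ^ (n + 2 + 1) / (((n + 2 : ℕ) : ℝ) + 1) * |mgap w b ν lam y (n + 2 + 1)|
        ≤ |ε| ^ (n + 2 + 1) / (((n + 2 : ℕ) : ℝ) + 1)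
          * (((n + 2 + 1 : ℕ) : ℝ) ^ 4 / 8 * (M * V)) :=
          mul_le_mul_of_nonneg_left hb (by positivity)
      _ = |ε| ^ 3 * M * V / 8 * (((n : ℝ) + 3) ^ 3 * |ε| ^ n) := by
          push_cast
          field_simp
          ring
      _ ≤ _ := mul_le_mul_of_nonneg_left (mul_le_mul_of_nonneg_left hp (by positivity))
          (by positivity)

end prob

/-- The weight `1 + ε ∫ cos (ξ t + θ) dν` as a potential. -/
noncomputable def weakPot (ν : Measure FP) [IsProbabilityMeasure ν]
    (hν : Integrable (fun p : FP => p.1 ^ 2) ν) (δ : ℝ) (hδ0 : 0 < δ)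
    (hδ : ∀ r ∈ Set.Icc (-1 : ℝ) 1, δ ≤ curv ν r) (ε : ℝ) (hε : |ε| ≤ eps0 ν δ) : Pot where
  fn t := 1 + ε * phaseT ν t
  lo := 1 - |ε|
  hi := 1 + |ε|
  lo_pos := by linarith [(le_min_iff.1 hε).1]
  mem t := by
    have h : |ε * phaseT ν t| ≤ |ε| := by
      rw [abs_mul]; exact mul_le_of_le_one_right (abs_nonneg _) (abs_phaseT_le ν t)
    obtain ⟨a, c⟩ := abs_le.1 h
    constructor <;> linarith
  meas := (continuous_const.add (continuous_const.mul (continuous_phaseT ν))).measurable
  one := by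
    intro X _ ι _ K _ _ w _ b lam h0 h1 y hy hun
    by_cases hw : w = 0
    · subst hw
      simp
    haveI : NeZero w := ⟨hw⟩
    set m := w.real Set.univ with hm
    have hm0 : 0 < m := by
      rw [hm, measureReal_def, ENNReal.toReal_pos_iff]
      exact ⟨pos_iff_ne_zero.2 (by simpa using hw), measure_lt_top _ _⟩
    set w0 : Measure X := (w Set.univ)⁻¹ • w with hw0
    have hun0 : UnitBlk b lam y w0 := Measure.ae_smul_measure hun _
    have hε1 : |ε| < 1 := by linarith [(le_min_iff.1 hε).1]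
    have hpos : ∀ (z : X → ι → ℝ) g, 1 - |ε| ≤ 1 + ε * pavg ν w0 z g
        ∧ 1 + ε * pavg ν w0 z g ≤ 1 + |ε| := fun z g => by
      have h : |ε * pavg ν w0 z g| ≤ |ε| := by
        rw [abs_mul]; exact mul_le_of_le_one_right (abs_nonneg _) (abs_pavg_le ν w0 z g)
      obtain ⟨a, c⟩ := abs_le.1 h
      constructor <;> linarith
    have key : ∀ z : X → ι → ℝ, Measurable z →
        ∫ g, Real.log (∫ x, (1 + ε * phaseT ν (field z g x)) ∂w) ∂(gauss ι)
          = Real.log m + ∫ g, Real.log (1 + ε * pavg ν w0 z g) ∂(gauss ι) := by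
      intro z hz
      have hi : Integrable (fun g => Real.log (1 + ε * pavg ν w0 z g)) (gauss ι) := by
        refine Integrable.of_bound (Real.measurable_log.comp
          (((measurable_pavg ν w0 hz).const_mul ε).const_add 1)).aestronglyMeasurable
          (max |Real.log (1 - |ε|)| |Real.log (1 + |ε|)|) (Eventually.of_forall fun g => ?_)
        exact abs_le_max_abs_abs (Real.log_le_log (by linarith) (hpos z g).1)
          (Real.log_le_log (by linarith [(hpos z g).1]) (hpos z g).2)
      have e : ∀ g, Real.log (∫ x, (1 + ε * phaseT ν (field z g x)) ∂w)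
          = Real.log m + Real.log (1 + ε * pavg ν w0 z g) := by
        intro g
        rw [← Real.log_mul hm0.ne' (by linarith [(hpos z g).1] : (0:ℝ) < _).ne']
        congr 1
        have hp : pavg ν w0 z g = m⁻¹ * ∫ x, phaseT ν (field z g x) ∂w := by
          rw [pavg, hw0, integral_smul_measure, smul_eq_mul, ENNReal.toReal_inv, hm,
            measureReal_def]
        have hfi : Integrable (fun x => ε * phaseT ν (field z g x)) w :=
          (Integrable.of_bound ((continuous_phaseT ν).measurable.comp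
            (by unfold field; fun_prop)).aestronglyMeasurable 1
            (Eventually.of_forall fun x => by simpa using abs_phaseT_le ν _)).const_mul ε
        rw [integral_add (integrable_const _) hfi, integral_const, smul_eq_mul, mul_one,
          integral_const_mul, hp, ← hm]
        field_simp
      simp only [e]
      rw [integral_add (integrable_const _) hi]
      simp
    simp only [key (mixC b lam y) (measurable_mixC b lam hy),
      fun j => key (blkC b j y) (measurable_blkC b j hy), mul_add, Finset.sum_add_distrib,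
      ← Finset.sum_mul, h1, one_mul]
    linarith [one_weak_prob (w := w0) hν hδ0 hδ hε h0 h1 hy hun0]

end Vale.Agent.P157
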