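import Vale.Agent.P157.Ising
import Vale.Agent.P157.Gaussian

/-!
Existence of the limit of the pressure on the sphere.
-/

namespace Vale.Agent.P157

open MeasureTheory ProbabilityTheory Real Filter Topology Metric
open scoped ENNReal

/-- The normalised surface measure of the sphere of radius `sqrt N` in `ℝ^N`. -/
noncomputable def sphereMeasure (N : ℕ) : Measure (Fin N → ℝ) :=
  (((volume : Measure (EuclideanSpace ℝ (Fin N))).toSphere Set.univ)⁻¹ •
    (volume : Measure (EuclideanSpace ℝ (Fin N))).toSphere).map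
    fun (u : sphere (0 : EuclideanSpace ℝ (Fin N)) 1) (i : Fin N) =>
      Real.sqrt N * (u : EuclideanSpace ℝ (Fin N)) i

lemma sphereMeasure_eq {N : ℕ} (hN : 0 < N) :
    sphereMeasure N = (unitLaw N).map fun u i => Real.sqrt N * u i := by
  rw [unitLaw_eq hN, Measure.map_map (measurable_pi_lambda _ fun i =>
    (measurable_pi_apply i).const_mul _) measurable_sphereCoord]
  rfl

lemma sphere_prob {N : ℕ} (hN : 0 < N) : IsProbabilityMeasure (sphereMeasure N) := by
  rw [sphereMeasure_eq hN]
  exact Measure.isProbabilityMeasure_map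
    (measurable_pi_lambda _ fun i => (measurable_pi_apply i).const_mul _).aemeasurable

lemma unitLaw_norm {m : ℕ} (hm : 0 < m) : ∀ᵐ u ∂(unitLaw m), ∑ i, u i ^ 2 = 1 := by
  rw [unitLaw, ae_map_iff measurable_dirn.aemeasurable
    (measurableSet_eq_fun (by fun_prop) measurable_const)]
  haveI : NullSingletonClass (gaussianReal 0 1) := nullSingletonClass_gaussianReal one_ne_zero
  filter_upwards [(measurePreserving_eval (fun _ : Fin m => gaussianReal 0 1) ⟨0, hm⟩).quasiMeasurePreserving.ae
    (Measure.ae_ne (gaussianReal 0 1) 0)] with G hG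
  have hpos : 0 < ∑ i, G i ^ 2 :=
    Finset.sum_pos' (fun i _ => sq_nonneg _) ⟨⟨0, hm⟩, Finset.mem_univ _, by
      exact sq_pos_of_ne_zero hG⟩
  simp only [dirn, div_pow, nrm_sq, ← Finset.sum_div]
  exact div_self hpos.ne'

section split

variable {K : Type} [Fintype K] [DecidableEq K] (sz : K → ℕ)

/-- Law of the block lengths. -/
noncomputable def radii : Measure (K → ℝ) :=
  Measure.pi fun j => (gauss (Fin (sz j))).map nrm

/-- Law of the block directions. -/
noncomputable def dirs : Measure (∀ j, Fin (sz j) → ℝ) := Measure.pi fun j => unitLaw (sz j)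

instance : IsProbabilityMeasure (radii sz) := by
  haveI : ∀ j, IsProbabilityMeasure ((gauss (Fin (sz j))).map nrm) := fun j =>
    Measure.isProbabilityMeasure_map measurable_nrm.aemeasurable
  unfold radii; infer_instance

instance : IsProbabilityMeasure (dirs sz) := by
  unfold dirs; infer_instance

omit [DecidableEq K] in
lemma mp_split : MeasurePreserving
    (fun x : ∀ j, Fin (sz j) → ℝ => ((fun j => nrm (x j)), fun j => dirn (x j)))
    (Measure.pi fun j => gauss (Fin (sz j))) ((radii sz).prod (dirs sz)) := by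
  haveI : ∀ j, IsProbabilityMeasure ((gauss (Fin (sz j))).map nrm) := fun j =>
    Measure.isProbabilityMeasure_map measurable_nrm.aemeasurable
  have h1 := measurePreserving_pi (fun j => gauss (Fin (sz j)))
    (fun j => ((gauss (Fin (sz j))).map nrm).prod (unitLaw (sz j))) (fun j => mp_polar (sz j))
  have h2 : MeasurePreserving
      (fun q : ∀ j, ℝ × (Fin (sz j) → ℝ) => ((fun j => (q j).1), fun j => (q j).2))
      (Measure.pi fun j => ((gauss (Fin (sz j))).map nrm).prod (unitLaw (sz j)))
      ((radii sz).prod (dirs sz)) := by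
    have hq : Measurable (fun q : ∀ j, ℝ × (Fin (sz j) → ℝ) =>
        ((fun j => (q j).1), fun j => (q j).2)) :=
      (measurable_pi_lambda _ fun j => (measurable_pi_apply j).fst).prodMk
        (measurable_pi_lambda _ fun j => (measurable_pi_apply j).snd)
    refine ⟨hq, (Measure.prod_eq_generateFrom generateFrom_pi generateFrom_pi isPiSystem_pi
      isPiSystem_pi
      (Measure.FiniteSpanningSetsIn.pi fun j =>
        ((gauss (Fin (sz j))).map nrm).toFiniteSpanningSetsIn)
      (Measure.FiniteSpanningSetsIn.pi fun j => (unitLaw (sz j)).toFiniteSpanningSetsIn) ?_).symm⟩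
    rintro _ ⟨s, hs, rfl⟩ _ ⟨t, ht, rfl⟩
    have hs' : ∀ j, MeasurableSet (s j) := fun j => hs j trivial
    have ht' : ∀ j, MeasurableSet (t j) := fun j => ht j trivial
    rw [Measure.map_apply hq ((MeasurableSet.univ_pi hs').prod (MeasurableSet.univ_pi ht')),
      show (fun q : ∀ j, ℝ × (Fin (sz j) → ℝ) => ((fun j => (q j).1), fun j => (q j).2)) ⁻¹'
          ((Set.univ.pi s) ×ˢ (Set.univ.pi t)) = Set.univ.pi fun j => s j ×ˢ t j by
        ext q; simp [Set.mem_pi, forall_and]]
    simp only [radii, dirs, Measure.pi_pi, Measure.prod_prod]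
    rw [Finset.prod_mul_distrib]
  exact h2.comp h1

omit [DecidableEq K] in
/-- An empty block has length zero almost surely. -/
lemma radii_empty {j : K} (hj : sz j = 0) : ∀ᵐ ρ ∂(radii sz), ρ j = 0 := by
  haveI : ∀ j, IsProbabilityMeasure ((gauss (Fin (sz j))).map nrm) := fun j =>
    Measure.isProbabilityMeasure_map measurable_nrm.aemeasurable
  have h : ∀ᵐ t ∂((gauss (Fin (sz j))).map nrm), t = 0 := by
    rw [ae_map_iff (p := fun t : ℝ => t = 0) measurable_nrm.aemeasurable (measurableSet_singleton 0)]
    refine Eventually.of_forall fun G => ?_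
    haveI : IsEmpty (Fin (sz j)) := by rw [hj]; infer_instance
    simp [nrm]
  exact (measurePreserving_eval (fun j => (gauss (Fin (sz j))).map nrm) j).quasiMeasurePreserving.ae h

omit [DecidableEq K] in
/-- Share of block `j` in the squared length. -/
noncomputable def share (N : ℕ) (r : K → ℝ) (j : K) : ℝ :=
  if ∑ i, r i ^ 2 = 0 then (sz j : ℝ) / N else r j ^ 2 / ∑ i, r i ^ 2

omit [DecidableEq K] in
lemma measurable_share (N : ℕ) (j : K) : Measurable fun r : K → ℝ => share sz N r j := by
  unfold share
  exact Measurable.ite (measurableSet_eq_fun (by fun_prop) measurable_const) measurable_const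
    (by fun_prop)

omit [DecidableEq K] in
lemma share_nonneg (N : ℕ) (r : K → ℝ) (j : K) : 0 ≤ share sz N r j := by
  unfold share; split <;> positivity

omit [DecidableEq K] in
lemma sum_share {N : ℕ} (hN : 0 < N) (hsum : ∑ j, sz j = N) (r : K → ℝ) :
    ∑ j, share sz N r j = 1 := by
  unfold share
  split_ifs with h
  · rw [← Finset.sum_div, ← Nat.cast_sum, hsum, div_self]
    positivity
  · rw [← Finset.sum_div, div_self h]

omit [DecidableEq K] in
lemma share_dev {N : ℕ} (hN : 0 < N) (hsum : ∑ j, sz j = N) (r : K → ℝ) :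
    ∑ j, |share sz N r j - (sz j : ℝ) / N| ≤ 2 / N * ∑ j, |r j ^ 2 - sz j| := by
  set S := ∑ j, r j ^ 2 with hS
  have hN' : (0 : ℝ) < N := by exact_mod_cast hN
  by_cases h : S = 0
  · have : ∀ j, share sz N r j = (sz j : ℝ) / N := fun j => by rw [share, if_pos (hS ▸ h)]
    simp [this]
    positivity
  have hl : ∀ j, share sz N r j * S = r j ^ 2 := fun j => by
    rw [share, if_neg (hS ▸ h), ← hS, div_mul_cancel₀ _ h]
  have hSN : |(N : ℝ) - S| ≤ ∑ j, |r j ^ 2 - sz j| := by
    rw [← hsum, Nat.cast_sum, hS, ← Finset.sum_sub_distrib]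
    exact (Finset.abs_sum_le_sum_abs _ _).trans
      (le_of_eq (Finset.sum_congr rfl fun j _ => abs_sub_comm _ _))
  have hj : ∀ j, |share sz N r j - (sz j : ℝ) / N|
      ≤ (|r j ^ 2 - sz j| + share sz N r j * |(N : ℝ) - S|) / N := by
    intro j
    rw [show share sz N r j - (sz j : ℝ) / N
        = ((r j ^ 2 - sz j) + share sz N r j * ((N : ℝ) - S)) / N by
      rw [mul_sub, hl]; field_simp; ring, abs_div, Nat.abs_cast]
    refine div_le_div_of_nonneg_right ((abs_add_le _ _).trans (le_of_eq ?_)) hN'.le
    rw [abs_mul, abs_of_nonneg (share_nonneg sz N r j)]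
  refine (Finset.sum_le_sum fun j _ => hj j).trans ?_
  rw [← Finset.sum_div, Finset.sum_add_distrib, ← Finset.sum_mul, sum_share sz hN hsum r, one_mul,
    div_mul_eq_mul_div]
  exact div_le_div_of_nonneg_right (by linarith) hN'.le

omit [DecidableEq K] in
lemma gauss_sigma : (Measure.pi fun j => gauss (Fin (sz j))).map (flat (B := fun j => Fin (sz j)))
    = gauss (Σ j, Fin (sz j)) := by
  refine (Measure.pi_eq fun s hs => ?_).symm
  rw [Measure.map_apply measurable_flat (MeasurableSet.univ_pi hs)]
  have : flat (B := fun j => Fin (sz j)) ⁻¹' Set.univ.pi s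
      = Set.univ.pi fun j => Set.univ.pi fun i => s ⟨j, i⟩ := by
    ext x
    simp [flat, Sigma.forall]
  rw [this, Measure.pi_pi, ← Finset.univ_sigma_univ, Finset.prod_sigma]
  exact Finset.prod_congr rfl fun j _ => by rw [gauss, Measure.pi_pi]

/-- Configurations as lengths and directions. -/
noncomputable def assemble (N : ℕ) (q : (K → ℝ) × (∀ j, Fin (sz j) → ℝ))
    (i : Σ j, Fin (sz j)) : ℝ :=
  Real.sqrt (share sz N q.1 i.1) * q.2 i.1 i.2

omit [DecidableEq K] in
lemma measurable_assemble (N : ℕ) : Measurable (assemble sz N) := by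
  refine measurable_pi_lambda _ fun i => ?_
  exact ((measurable_share sz N i.1).comp measurable_fst).sqrt.mul
    ((measurable_pi_apply i.2).comp ((measurable_pi_apply i.1).comp measurable_snd))

omit [DecidableEq K] in
lemma map_assemble (N : ℕ) (e : (Σ j, Fin (sz j)) ≃ Fin N) :
    ((radii sz).prod (dirs sz)).map (fun q (i : Fin N) => assemble sz N q (e.symm i))
      = unitLaw N := by
  have hm : Measurable fun q (i : Fin N) => assemble sz N q (e.symm i) :=
    measurable_pi_lambda _ fun i => (measurable_pi_apply (e.symm i)).comp (measurable_assemble sz N)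
  rw [← (mp_split sz).map_eq, Measure.map_map hm (mp_split sz).measurable, unitLaw,
    show gauss (Fin N) = (gauss (Σ j, Fin (sz j))).map
        (fun (G : (Σ j, Fin (sz j)) → ℝ) (i : Fin N) => G (e.symm i)) from
      ((mp_comp (gaussianReal 0 1) e.symm.injective).map_eq).symm, ← gauss_sigma sz,
    Measure.map_map (by fun_prop) measurable_flat,
    Measure.map_map measurable_dirn ((by fun_prop : Measurable fun (G : (Σ j, Fin (sz j)) → ℝ)
      (i : Fin N) => G (e.symm i)).comp measurable_flat)]
  congr 1
  funext x i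
  obtain ⟨⟨j, l⟩, rfl⟩ := e.surjective i
  have hS : nrm (fun i : Fin N => flat x (e.symm i)) ^ 2 = ∑ k, nrm (x k) ^ 2 := by
    rw [nrm_sq, ← Equiv.sum_comp e]
    have hfl : ∀ q, flat x (e.symm (e q)) = flat x q := fun q =>
      congrArg (flat x) (e.symm_apply_apply q)
    simp only [hfl]
    simp only [flat]
    rw [← Finset.univ_sigma_univ, Finset.sum_sigma]
    exact Finset.sum_congr rfl fun k _ => (nrm_sq _).symm
  simp only [Function.comp_apply, assemble, dirn]
  rw [Equiv.symm_apply_apply]
  simp only [share]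
  have h0 : nrm (x j) = 0 → x j l = 0 := fun h => by
    have := nrm_sq (x j)
    rw [h] at this
    have := (Finset.sum_eq_zero_iff_of_nonneg fun i _ => sq_nonneg (x j i)).1
      (by simpa using this.symm) l (Finset.mem_univ l)
    simpa using this
  rw [show flat x (⟨j, l⟩ : Σ j, Fin (sz j)) = x j l from rfl]
  split_ifs with h
  · have hj : nrm (x j) ^ 2 = 0 :=
      (Finset.sum_eq_zero_iff_of_nonneg fun i _ => sq_nonneg _).1 h j (Finset.mem_univ j)
    rw [h0 (by simpa using hj)]
    simp
  · rw [Real.sqrt_div (sq_nonneg _), Real.sqrt_sq (nrm_nonneg _), ← hS,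
      Real.sqrt_sq (nrm_nonneg _)]
    rcases eq_or_ne (nrm (x j)) 0 with h' | h'
    · simp [h0 h']
    · field_simp

variable {Φ : Pot}

/-- Conditioning on the block lengths can only lower the averaged log-partition function. -/
lemma condition_le (N M : ℕ) :
    ∫ r, elogZ Φ (dirs sz)
        (fun _ : Fin M => mixC Sigma.fst (share sz N r) (flat (B := fun j => Fin (sz j))))
        ∂(radii sz)
      ≤ elogZ Φ ((radii sz).prod (dirs sz)) (fun _ : Fin M => assemble sz N) ∧
    Integrable (fun r => elogZ Φ (dirs sz)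
        (fun _ : Fin M => mixC Sigma.fst (share sz N r) (flat (B := fun j => Fin (sz j)))))
        (radii sz) := by
  have hz : ∀ _m : Fin M, Measurable (assemble sz N) := fun _ => measurable_assemble sz N
  set F : ((K → ℝ) × (Fin M → (Σ j, Fin (sz j)) → ℝ)) → ℝ := fun p =>
    ∫ u, wprod Φ (fun _ : Fin M => assemble sz N) p.2 (p.1, u) ∂(dirs sz) with hFdef
  have hlo : 0 < Φ.lo := Φ.lo_pos
  have hFm : Measurable F := by
    have h2 : Measurable fun q : ((K → ℝ) × (Fin M → (Σ j, Fin (sz j)) → ℝ)) ×
        (∀ j, Fin (sz j) → ℝ) =>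
        wprod Φ (fun _ : Fin M => assemble sz N) q.1.2 (q.1.1, q.2) := by
      unfold wprod
      refine Finset.measurable_prod Finset.univ fun m _ => Φ.meas.comp ?_
      unfold field
      refine Finset.measurable_sum Finset.univ fun i _ => ?_
      refine Measurable.mul
        ((measurable_pi_apply i).comp ((measurable_pi_apply m).comp measurable_fst.snd)) ?_
      exact ((measurable_share sz N i.1).comp measurable_fst.fst).sqrt.mul
        ((measurable_pi_apply i.2).comp ((measurable_pi_apply i.1).comp measurable_snd))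
    exact h2.stronglyMeasurable.integral_prod_right'.measurable
  have hw : ∀ r (u : ∀ j, Fin (sz j) → ℝ) (G : Fin M → (Σ j, Fin (sz j)) → ℝ),
      wprod Φ (fun _ : Fin M => assemble sz N) G (r, u) = wprod Φ
        (fun _ : Fin M => mixC Sigma.fst (share sz N r) (flat (B := fun j => Fin (sz j)))) G u := by
    intro r u G
    simp only [wprod, field, assemble, mixC, flat]
  have hmix : ∀ r (G : Fin M → (Σ j, Fin (sz j)) → ℝ), logZ Φ (dirs sz)
      (fun _ : Fin M => mixC Sigma.fst (share sz N r) (flat (B := fun j => Fin (sz j)))) G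
        = Real.log (F (r, G)) := by
    intro r G
    simp only [logZ, hFdef, hw]
  have hFb : ∀ p, Φ.lo ^ M ≤ F p ∧ F p ≤ Φ.hi ^ M := by
    intro p
    have h := intWprod_mem (Φ := Φ) (dirs sz) (z := fun _ : Fin M => mixC Sigma.fst (share sz N p.1)
      (flat (B := fun j => Fin (sz j)))) (fun _ => measurable_mixC _ _ measurable_flat) p.2
    simp only [probReal_univ, mul_one] at h
    simp only [hFdef, hw]
    exact h
  have hlogi : Integrable (fun p => Real.log (F p)) ((radii sz).prod (pgauss M (Σ j, Fin (sz j)))) := by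
    refine Integrable.of_bound (Real.measurable_log.comp hFm).aestronglyMeasurable
      (max |Real.log (Φ.lo ^ M)| |Real.log (Φ.hi ^ M)|)
      (Eventually.of_forall fun p => ?_)
    obtain ⟨l, u⟩ := hFb p
    exact abs_le_max_abs_abs (Real.log_le_log (pow_pos hlo M) l)
      (Real.log_le_log ((pow_pos hlo M).trans_le l) u)
  constructor
  · simp only [elogZ, hmix]
    rw [integral_integral_swap hlogi]
    refine integral_mono hlogi.integral_prod_right
      (integrable_logZ ((radii sz).prod (dirs sz)) hz) fun G => ?_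
    set Z := ∫ x, wprod Φ (fun _ : Fin M => assemble sz N) G x ∂((radii sz).prod (dirs sz))
    have hint := integrable_wprod (Φ := Φ) ((radii sz).prod (dirs sz)) hz G
    have eZ : Z = ∫ r, F (r, G) ∂(radii sz) := integral_prod _ hint
    have hFi : Integrable (fun r => F (r, G)) (radii sz) := hint.integral_prod_left
    have hZ := (intWprod_mem (Φ := Φ) ((radii sz).prod (dirs sz)) hz G).1
    simp only [probReal_univ, mul_one] at hZ
    have hZ0 : 0 < Z := (pow_pos hlo M).trans_le hZ
    have hL : Integrable (fun r => Real.log (F (r, G))) (radii sz) := by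
      refine Integrable.of_bound (Real.measurable_log.comp
        (hFm.comp measurable_prodMk_right)).aestronglyMeasurable
        (max |Real.log (Φ.lo ^ M)| |Real.log (Φ.hi ^ M)|)
        (Eventually.of_forall fun r => ?_)
      obtain ⟨l, u⟩ := hFb (r, G)
      exact abs_le_max_abs_abs (Real.log_le_log (pow_pos hlo M) l)
        (Real.log_le_log ((pow_pos hlo M).trans_le l) u)
    have h1 : ∫ r, (Real.log (F (r, G)) - Real.log Z) ∂(radii sz)
        ≤ ∫ r, (F (r, G) / Z - 1) ∂(radii sz) := by
      refine integral_mono (hL.sub (integrable_const _))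
        ((hFi.div_const Z).sub (integrable_const _)) fun r => ?_
      have hF0 : 0 < F (r, G) := (pow_pos hlo M).trans_le (hFb (r, G)).1
      rw [← Real.log_div hF0.ne' hZ0.ne']
      exact Real.log_le_sub_one_of_pos (div_pos hF0 hZ0)
    rw [integral_sub hL (integrable_const _), integral_sub (hFi.div_const Z) (integrable_const _),
      integral_div, ← eZ, div_self hZ0.ne'] at h1
    simp only [integral_const, probReal_univ, one_smul, sub_self] at h1
    simp only [logZ]
    linarith
  · simp only [elogZ, hmix]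
    exact hlogi.integral_prod_left

omit [DecidableEq K] in
lemma integral_radii (j : K) :
    Integrable (fun r : K → ℝ => |r j ^ 2 - sz j|) (radii sz) ∧
      ∫ r, |r j ^ 2 - sz j| ∂(radii sz) ≤ Real.sqrt (2 * sz j) := by
  haveI : ∀ j, IsProbabilityMeasure ((gauss (Fin (sz j))).map nrm) := fun j =>
    Measure.isProbabilityMeasure_map measurable_nrm.aemeasurable
  obtain ⟨hi, hb⟩ := integral_abs_nrm_sq (sz j)
  have hm : AEStronglyMeasurable (fun x : ℝ => |x ^ 2 - sz j|) ((gauss (Fin (sz j))).map nrm) :=
    (by fun_prop : Measurable fun x : ℝ => |x ^ 2 - sz j|).aestronglyMeasurable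
  have hi' : Integrable (fun x : ℝ => |x ^ 2 - sz j|) ((gauss (Fin (sz j))).map nrm) :=
    (integrable_map_measure hm measurable_nrm.aemeasurable).2 hi
  refine ⟨integrable_comp_eval (μ := fun j => (gauss (Fin (sz j))).map nrm) hi', ?_⟩
  rw [radii, integral_comp_eval (μ := fun j => (gauss (Fin (sz j))).map nrm)
    (f := fun x : ℝ => |x ^ 2 - sz j|) hm, integral_map measurable_nrm.aemeasurable hm]
  exact hb

end split

variable {Φ : Pot}

lemma sphere_scale {α : ℝ} {n : ℕ} (hn : 0 < n) :
    blockQ Φ (unitLaw n) ⌊α * n⌋₊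
      = n * pressure α (fun t => Real.log (Φ.fn t)) n (sphereMeasure n) := by
  have hn' : (n : ℝ) ≠ 0 := by positivity
  rw [pressure_eq , mul_div_cancel₀ _ hn', sphereMeasure_eq hn,
    elogZ_map (Equiv.refl _) _ (measurable_pi_lambda _ fun i =>
      (measurable_pi_apply i).const_mul _) (by fun_prop), blockQ]
  congr 1
  funext _ u i
  have : Real.sqrt n ≠ 0 := by positivity
  simp only [Equiv.refl_symm, Equiv.refl_apply, id]
  field_simp

theorem sphere_limit {α : ℝ} (hα : 0 < α) :
    ∃ L, Tendsto (fun N => pressure α (fun t => Real.log (Φ.fn t)) N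
      (sphereMeasure N)) atTop (𝓝 L) := by
  set P := fun N => pressure α (fun t => Real.log (Φ.fn t)) N
      (sphereMeasure N)
  have hC := Φ.bd_nonneg
  refine exists_limit (B := α * Φ.bd)
    (e := fun n => Φ.bd *
      (Real.sqrt (α / n) + 2 / n + 2 * α * Real.sqrt (2 * n) * (n : ℝ)⁻¹)) (fun N => ?_) ?_ ?_
  · simp only [P, pressure_eq , abs_div, Nat.abs_cast]
    rcases Nat.eq_zero_or_pos N with h | h
    · simp [h]; positivity
    haveI := sphere_prob h
    rw [div_le_iff₀ (by exact_mod_cast h)]
    refine (elogZ_abs_le _ fun _ => by fun_prop).trans ?_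
    nlinarith [Nat.floor_le (show (0:ℝ) ≤ α * N by positivity)]
  · have h1 := tendsto_const_div_atTop_nhds_zero_nat α
    have h2 := tendsto_const_div_atTop_nhds_zero_nat (8 * α ^ 2)
    have h3 : ∀ n : ℕ, 2 * α * Real.sqrt (2 * n) * (n : ℝ)⁻¹ = Real.sqrt (8 * α ^ 2 / n) := by
      intro n
      rcases Nat.eq_zero_or_pos n with h | h
      · simp [h]
      · have hn : (0 : ℝ) < n := by exact_mod_cast h
        rw [show 8 * α ^ 2 / (n : ℝ) = (2 * α / n) ^ 2 * (2 * n) by field_simp; ring,
          Real.sqrt_mul (sq_nonneg _), Real.sqrt_sq (by positivity)]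
        ring
    have := (((Real.continuous_sqrt.tendsto _).comp h1).add
      (tendsto_const_div_atTop_nhds_zero_nat 2)).add ((Real.continuous_sqrt.tendsto _).comp h2)
      |>.const_mul (Φ.bd)
    simp only [h3]
    simpa using this
  intro n hn
  refine eventually_ge hα.le hC hn
    (E := fun N => 2 * α * Real.sqrt (2 * n) * ((n : ℝ)⁻¹ + (N : ℝ)⁻¹)) ?_ ?_
  · simpa using ((tendsto_inv_atTop_nhds_zero_nat (𝕜 := ℝ)).const_add (n : ℝ)⁻¹).const_mul
      (2 * α * Real.sqrt (2 * n))
  filter_upwards [eventually_gt_atTop 0] with N hN0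
  set k := N / n
  set r := N % n
  have hN : N = k * n + r := by rw [mul_comm]; exact (Nat.div_add_mod N n).symm
  have hrn : r ≤ n := (Nat.mod_lt N hn).le
  have hN' : (0 : ℝ) < N := by exact_mod_cast hN0
  set sz : Option (Fin k) → ℕ := bsize k n r
  have hsum : ∑ j, sz j = N := by simp [sz, Fintype.sum_option, bsize, hN, add_comm]
  let e : (Σ j, Fin (sz j)) ≃ Fin N :=
    Fintype.equivFinOfCardEq (by rw [card_blocks]; exact hN.symm)
  obtain ⟨hle, hint⟩ := condition_le sz N ⌊α * N⌋₊
  have key : elogZ Φ ((radii sz).prod (dirs sz)) (fun _ : Fin ⌊α * N⌋₊ => assemble sz N)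
      = N * P N := by
    simp only [P]
    rw [← sphere_scale hN0, blockQ, ← map_assemble sz N e,
      elogZ_map e.symm _ (T := fun q (i : Fin N) => assemble sz N q (e.symm i))
        (measurable_pi_lambda _ fun i =>
        (measurable_pi_apply (e.symm i)).comp (measurable_assemble sz N)) measurable_id]
    congr 1
    funext _ q i
    simp
  set D : (Option (Fin k) → ℝ) → ℝ := fun ρ => ∑ j, |share sz N ρ j - (sz j : ℝ) / N|
  have hDint : Integrable D (radii sz) := by
    refine Integrable.mono' ((integrable_finsetSum Finset.univ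
      fun j _ => (integral_radii sz j).1).const_mul
      (2 / (N : ℝ))) (Finset.measurable_sum _ fun j _ =>
        ((measurable_share sz N j).sub_const _).norm).aestronglyMeasurable
      (Eventually.of_forall fun ρ => ?_)
    rw [Real.norm_eq_abs, abs_of_nonneg (Finset.sum_nonneg fun _ _ => abs_nonneg _)]
    exact share_dev sz hN0 hsum ρ
  set c0 := (k : ℝ) * (n * P n)
    - Φ.bd * (Real.sqrt (α * N * (k + 1)) + 2 * k + α * r)
  have hpt : ∀ᵐ ρ ∂(radii sz), c0 - Φ.bd * (α * N) * D ρ ≤ elogZ Φ (dirs sz)
      (fun _ : Fin ⌊α * N⌋₊ => mixC Sigma.fst (share sz N ρ)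
        (flat (B := fun j => Fin (sz j)))) := by
    have hz : ∀ᵐ ρ ∂(radii sz), ∀ j, sz j = 0 → ρ j = 0 := ae_all_iff.2 fun j => by
      by_cases h : sz j = 0
      · exact (radii_empty sz h).mono fun ρ hρ _ => hρ
      · exact Eventually.of_forall fun ρ h' => absurd h' h
    filter_upwards [hz] with ρ hρ
    have hun : UnitBlk Sigma.fst (share sz N ρ) (flat (B := fun j => Fin (bsize k n r j)))
        (Measure.pi fun j => unitLaw (bsize k n r j)) := by
      refine unitBlk_pi _ fun j hj => unitLaw_norm (Nat.pos_of_ne_zero fun h => hj ?_)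
      unfold share
      rw [hρ j h]
      simp [sz, h]
    have H := blocks_bound (Φ := Φ) hα.le hN (fun j => unitLaw (bsize k n r j))
      (lam := share sz N ρ) (share_nonneg sz N ρ) (sum_share sz hN0 hsum ρ) hun
    have eQ : ∀ i : Fin k, blockQ Φ (unitLaw (bsize k n r (some i))) ⌊α * n⌋₊ = n * P n :=
      fun i => sphere_scale hn
    simp only [eQ, Finset.sum_const, Finset.card_univ, Fintype.card_fin, nsmul_eq_mul] at H
    refine le_trans (le_of_eq ?_) H
    simp only [c0, D, sz]
    ring
  have h2 : ∫ ρ, (c0 - Φ.bd * (α * N) * D ρ) ∂(radii sz) ≤ N * P N := by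
    rw [← key]
    exact (integral_mono_ae ((integrable_const _).sub (hDint.const_mul _)) hint hpt).trans hle
  rw [integral_sub (integrable_const _) (hDint.const_mul _), integral_const_mul] at h2
  simp only [integral_const, probReal_univ, one_smul] at h2
  have h3 : ∫ ρ, D ρ ∂(radii sz) ≤ 2 / N * (((k : ℝ) + 1) * Real.sqrt (2 * n)) := by
    refine (integral_mono hDint ((integrable_finsetSum Finset.univ fun j _ =>
      (integral_radii sz j).1).const_mul (2 / (N : ℝ))) (share_dev sz hN0 hsum)).trans ?_
    rw [integral_const_mul, integral_finsetSum _ fun j _ => (integral_radii sz j).1]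
    refine mul_le_mul_of_nonneg_left ?_ (by positivity)
    have hb : ∀ j, ∫ ρ, |ρ j ^ 2 - sz j| ∂(radii sz) ≤ Real.sqrt (2 * n) := by
      intro j
      refine (integral_radii sz j).2.trans (Real.sqrt_le_sqrt ?_)
      have : sz j ≤ n := by cases j <;> simp [sz, bsize, hrn]
      have : (sz j : ℝ) ≤ n := by exact_mod_cast this
      linarith
    refine (Finset.sum_le_sum fun j _ => hb j).trans (le_of_eq ?_)
    simp
  have hkn : (k : ℝ) * n ≤ N := by exact_mod_cast Nat.div_mul_le_self N n
  have hk : (k : ℝ) + 1 ≤ N * ((n : ℝ)⁻¹ + (N : ℝ)⁻¹) := by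
    rw [mul_add, mul_inv_cancel₀ hN'.ne', ← div_eq_mul_inv]
    have := (le_div_iff₀ (show (0 : ℝ) < n by exact_mod_cast hn)).2 hkn
    linarith
  have h4 : α * N * ∫ ρ, D ρ ∂(radii sz)
      ≤ N * (2 * α * Real.sqrt (2 * n) * ((n : ℝ)⁻¹ + (N : ℝ)⁻¹)) :=
    calc α * N * ∫ ρ, D ρ ∂(radii sz)
        ≤ α * N * (2 / N * (((k : ℝ) + 1) * Real.sqrt (2 * n))) :=
          mul_le_mul_of_nonneg_left h3 (by positivity)
      _ = 2 * α * Real.sqrt (2 * n) * ((k : ℝ) + 1) := by field_simp
      _ ≤ 2 * α * Real.sqrt (2 * n) * (N * ((n : ℝ)⁻¹ + (N : ℝ)⁻¹)) :=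
          mul_le_mul_of_nonneg_left hk (by positivity)
      _ = _ := by ring
  have hr : α * r ≤ α * n := mul_le_mul_of_nonneg_left (by exact_mod_cast hrn) hα.le
  simp only [c0] at h2
  nlinarith [mul_le_mul_of_nonneg_left (add_le_add h4 hr) hC]

end Vale.Agent.P157
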