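import Vale.Agent.P157.Second

/-!
Weak potentials `log (1 + ε B)`: splitting one pattern cannot raise the averaged log-average.
-/

namespace Vale.Agent.P157

open MeasureTheory ProbabilityTheory Real Filter

variable {ν : Measure FP} [IsProbabilityMeasure ν]
variable {X : Type} [MeasurableSpace X] {ι : Type} [Fintype ι] {K : Type} [Fintype K]
  [DecidableEq K] (w : Measure X) [IsProbabilityMeasure w]
variable (b : ι → K) {lam : K → ℝ} {y : X → ι → ℝ}

/-- The gap between the block moments and the mixed moment. -/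
noncomputable def mgap (ν : Measure FP) [IsProbabilityMeasure ν] (lam : K → ℝ) (y : X → ι → ℝ)
    (n : ℕ) : ℝ :=
  (∑ j, lam j * ∫ g, pavg ν w (blkC b j y) g ^ n ∂(gauss ι))
    - ∫ g, pavg ν w (mixC b lam y) g ^ n ∂(gauss ι)

/-- The pointwise gap. -/
noncomputable def kgap (lam : K → ℝ) (y : X → ι → ℝ) {n : ℕ} (q : Fin n → FP × X) : ℝ :=
  (∑ j, lam j * Real.exp (-penergy (blkC b j y) q))
    - Real.exp (-∑ j, lam j * penergy (blkC b j y) q)

lemma measurable_ov (hy : Measurable y) (j : K) :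
    Measurable fun p : X × X => ov b y j p.1 p.2 := by
  have := measurable_blkC b j hy
  unfold ov
  fun_prop

lemma measurable_ovVar (lam : K → ℝ) (hy : Measurable y) :
    Measurable fun p : X × X => ovVar b lam y p.1 p.2 := by
  have := fun j => measurable_ov b hy j
  unfold ovVar
  fun_prop

lemma ovVar_le (h0 : ∀ j, 0 ≤ lam j) (h1 : ∑ j, lam j = 1) {x x' : X}
    (hx : UnitAt b lam y x) (hx' : UnitAt b lam y x') :
    0 ≤ ovVar b lam y x x' ∧ ovVar b lam y x x' ≤ 4 := by
  refine ⟨Finset.sum_nonneg fun j _ => mul_nonneg (h0 j) (sq_nonneg _), ?_⟩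
  have hb : ∀ j, lam j ≠ 0 → |ov b y j x x'| ≤ 1 := fun j hj =>
    abs_le.2 (Set.mem_Icc.1 (abs_ov_le (hx j hj) (hx' j hj)))
  have hm : |∑ i, lam i * ov b y i x x'| ≤ 1 := by
    refine (Finset.abs_sum_le_sum_abs _ _).trans ?_
    rw [← h1]
    refine Finset.sum_le_sum fun i _ => ?_
    rw [abs_mul, abs_of_nonneg (h0 i)]
    by_cases hi : lam i = 0
    · simp [hi]
    · exact mul_le_of_le_one_right (h0 i) (hb i hi)
  calc ovVar b lam y x x' ≤ ∑ j, lam j * 4 := by
        refine Finset.sum_le_sum fun j _ => ?_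
        by_cases hj : lam j = 0
        · simp [hj]
        refine mul_le_mul_of_nonneg_left ?_ (h0 j)
        have := abs_le.1 (hb j hj)
        have := abs_le.1 hm
        nlinarith
    _ = 4 := by rw [← Finset.sum_mul, h1, one_mul]

lemma ovVar_self (h1 : ∑ j, lam j = 1) {x : X} (hx : UnitAt b lam y x) :
    ovVar b lam y x x = 0 := by
  have hone : ∀ j, lam j * ov b y j x x = lam j := by
    intro j
    by_cases hj : lam j = 0
    · simp [hj]
    · have := hx j hj
      simp only [ov, ← sq, this, mul_one]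
  unfold ovVar
  simp only [hone, h1]
  refine Finset.sum_eq_zero fun j _ => ?_
  by_cases hj : lam j = 0
  · simp [hj]
  · have : ov b y j x x = 1 := by simpa [ov, ← sq] using hx j hj
    simp [this]

/-- The total overlap variance. -/
noncomputable def wvar (lam : K → ℝ) (y : X → ι → ℝ) : ℝ :=
  ∫ p, ovVar b lam y p.1 p.2 ∂(w.prod w)

variable {w} {b}

lemma ae_pair (hun : UnitBlk b lam y w) :
    ∀ᵐ p ∂(w.prod w), UnitAt b lam y p.1 ∧ UnitAt b lam y p.2 :=
  ((Measure.quasiMeasurePreserving_fst).ae hun).and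
    ((Measure.quasiMeasurePreserving_snd).ae hun)

lemma integrable_ovVar (h0 : ∀ j, 0 ≤ lam j) (h1 : ∑ j, lam j = 1) (hy : Measurable y)
    (hun : UnitBlk b lam y w) : Integrable (fun p => ovVar b lam y p.1 p.2) (w.prod w) :=
  Integrable.of_bound (measurable_ovVar b lam hy).aestronglyMeasurable 4
    ((ae_pair hun).mono fun p hp => by
      obtain ⟨a, c⟩ := ovVar_le b h0 h1 hp.1 hp.2
      rwa [Real.norm_eq_abs, abs_of_nonneg a])

lemma wvar_nonneg (h0 : ∀ j, 0 ≤ lam j) (h1 : ∑ j, lam j = 1) (hun : UnitBlk b lam y w) :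
    0 ≤ wvar w b lam y :=
  integral_nonneg_of_ae ((ae_pair hun).mono fun _ hp => (ovVar_le b h0 h1 hp.1 hp.2).1)

lemma mgap_eq (h0 : ∀ j, 0 ≤ lam j) (hy : Measurable y) (n : ℕ) :
    Integrable (fun q => Real.cos (phases q) * kgap b lam y q) (repl ν w n) ∧
    mgap w b ν lam y n = ∫ q, Real.cos (phases q) * kgap b lam y q ∂(repl ν w n) := by
  have hi := fun j => (integrable_kernel ν w (measurable_blkC b j hy) n).const_mul (lam j)
  have hj := integrable_kernel ν w (measurable_mixC b lam hy) n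
  have e : ∀ q : Fin n → FP × X, Real.cos (phases q) * kgap b lam y q
      = (∑ j, lam j * (Real.cos (phases q) * Real.exp (-penergy (blkC b j y) q)))
        - Real.cos (phases q) * Real.exp (-penergy (mixC b lam y) q) := by
    intro q
    have hm : penergy (mixC b lam y) q = ∑ j, lam j * penergy (blkC b j y) q :=
      energy_mix b h0 y _
    rw [hm, kgap, mul_sub, Finset.mul_sum]
    congr 1
    exact Finset.sum_congr rfl fun j _ => by ring
  simp only [e]
  refine ⟨(integrable_finsetSum _ fun j _ => hi j).sub hj, ?_⟩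
  rw [mgap, integral_sub (integrable_finsetSum _ fun j _ => hi j) hj,
    integral_finsetSum _ fun j _ => hi j, ← integral_pavg_pow ν w (measurable_mixC b lam hy)]
  congr 1
  refine Finset.sum_congr rfl fun j _ => ?_
  rw [integral_const_mul, ← integral_pavg_pow ν w (measurable_blkC b j hy)]

lemma ae_repl (hun : UnitBlk b lam y w) (n : ℕ) :
    ∀ᵐ q ∂(repl ν w n), ∀ l, UnitAt b lam y (q l).2 :=
  ae_all_iff.2 fun l => (measurePreserving_eval (fun _ : Fin n => (symP ν).prod w) l).quasiMeasurePreserving.ae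
    ((Measure.quasiMeasurePreserving_snd).ae hun)

/-- One pair of replicas in the bound. -/
lemma pair_term (hν : Integrable (fun p : FP => p.1 ^ 2) ν) (h0 : ∀ j, 0 ≤ lam j)
    (h1 : ∑ j, lam j = 1) (hy : Measurable y) (hun : UnitBlk b lam y w) {n : ℕ} (l m : Fin n) :
    Integrable (fun q => (q l).1.1 ^ 2 * (q m).1.1 ^ 2 * ovVar b lam y (q l).2 (q m).2) (repl ν w n) ∧
    ∫ q, (q l).1.1 ^ 2 * (q m).1.1 ^ 2 * ovVar b lam y (q l).2 (q m).2 ∂(repl ν w n)
      ≤ msq ν ^ 2 * wvar w b lam y := by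
  by_cases hlm : l = m
  · subst hlm
    have hz : (fun q : Fin n → FP × X => (q l).1.1 ^ 2 * (q l).1.1 ^ 2 * ovVar b lam y (q l).2 (q l).2)
        =ᵐ[repl ν w n] fun _ => (0 : ℝ) :=
      (ae_repl hun n).mono fun q hq => by simp [ovVar_self b h1 (hq l)]
    refine ⟨(integrable_const (0 : ℝ)).congr hz.symm, ?_⟩
    rw [integral_congr_ae hz, integral_zero]
    exact mul_nonneg (sq_nonneg _) (wvar_nonneg h0 h1 hun)
  set e : Fin 2 → Fin n := ![l, m] with he
  have hinj : Function.Injective e := by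
    intro a c h
    fin_cases a <;> fin_cases c <;> simp_all [e, eq_comm]
  have hp := (measurePreserving_finTwoArrow ((symP ν).prod w)).comp (mp_comp ((symP ν).prod w) hinj)
  have hsq := integrable_sq_symP hν
  have hsh : MeasurePreserving (fun p : (FP × X) × (FP × X) => ((p.1.1, p.2.1), (p.1.2, p.2.2)))
      (((symP ν).prod w).prod ((symP ν).prod w)) (((symP ν).prod (symP ν)).prod (w.prod w)) := by
    refine ⟨by fun_prop, ?_⟩
    refine (Measure.prod_eq_generateFrom generateFrom_prod generateFrom_prod isPiSystem_prod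
      isPiSystem_prod
      ((symP ν).toFiniteSpanningSetsIn.prod (symP ν).toFiniteSpanningSetsIn)
      (w.toFiniteSpanningSetsIn.prod w.toFiniteSpanningSetsIn) ?_).symm
    rintro _ ⟨s1, hs1', s2, hs2', rfl⟩ _ ⟨t1, ht1', t2, ht2', rfl⟩
    have hs1 : MeasurableSet s1 := hs1'
    have hs2 : MeasurableSet s2 := hs2'
    have ht1 : MeasurableSet t1 := ht1'
    have ht2 : MeasurableSet t2 := ht2'
    rw [Measure.map_apply (by fun_prop) ((MeasurableSet.prod hs1 hs2).prod (MeasurableSet.prod ht1 ht2)),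
      show (fun p : (FP × X) × (FP × X) => ((p.1.1, p.2.1), (p.1.2, p.2.2))) ⁻¹'
          ((s1 ×ˢ s2) ×ˢ (t1 ×ˢ t2)) = (s1 ×ˢ t1) ×ˢ (s2 ×ˢ t2) by
        ext p; simp only [Set.mem_preimage, Set.mem_prod]; tauto]
    simp only [Measure.prod_prod]
    ring
  have hall := hsh.comp hp
  set F : (FP × FP) × (X × X) → ℝ := fun p =>
    p.1.1.1 ^ 2 * p.1.2.1 ^ 2 * ovVar b lam y p.2.1 p.2.2 with hF
  have hFi : Integrable F (((symP ν).prod (symP ν)).prod (w.prod w)) :=
    (hsq.mul_prod hsq).mul_prod (integrable_ovVar h0 h1 hy hun)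
  have hfun : (fun q : Fin n → FP × X => (q l).1.1 ^ 2 * (q m).1.1 ^ 2 * ovVar b lam y (q l).2 (q m).2)
      = F ∘ ((fun p : (FP × X) × (FP × X) => ((p.1.1, p.2.1), (p.1.2, p.2.2))) ∘
        (MeasurableEquiv.finTwoArrow ∘ fun (G : Fin n → FP × X) (i : Fin 2) => G (e i))) := by
    funext q
    simp [F, e, MeasurableEquiv.finTwoArrow, MeasurableEquiv.piFinTwo]
  refine ⟨?_, le_of_eq ?_⟩
  · rw [hfun]
    exact hall.integrable_comp_of_integrable hFi
  · rw [hfun]
    have : ∫ q, F q ∂(((symP ν).prod (symP ν)).prod (w.prod w)) = msq ν ^ 2 * wvar w b lam y := by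
      simp only [F]
      rw [integral_prod_mul (fun p : FP × FP => p.1.1 ^ 2 * p.2.1 ^ 2)
        (fun p : X × X => ovVar b lam y p.1 p.2),
        integral_prod_mul (fun p : FP => p.1 ^ 2) (fun p : FP => p.1 ^ 2), msq, wvar, sq]
    rw [← this, ← hall.map_eq, integral_map hall.measurable.aemeasurable
      (by rw [hall.map_eq]; exact hFi.aestronglyMeasurable)]
    rfl

/-- All orders: the gap is of the size of the overlap variance. -/
lemma abs_mgap_le (hν : Integrable (fun p : FP => p.1 ^ 2) ν) (h0 : ∀ j, 0 ≤ lam j)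
    (h1 : ∑ j, lam j = 1) (hy : Measurable y) (hun : UnitBlk b lam y w) (n : ℕ) :
    |mgap w b ν lam y n| ≤ (n : ℝ) ^ 4 / 8 * (msq ν ^ 2 * wvar w b lam y) := by
  obtain ⟨hi, he⟩ := mgap_eq (ν := ν) (w := w) h0 hy n
  set S : (Fin n → FP × X) → ℝ := fun q =>
    ∑ l, ∑ m, (q l).1.1 ^ 2 * (q m).1.1 ^ 2 * ovVar b lam y (q l).2 (q m).2
  have hS : Integrable S (repl ν w n) :=
    integrable_finsetSum _ fun l _ => integrable_finsetSum _ fun m _ =>
      (pair_term hν h0 h1 hy hun l m).1
  have hpt : ∀ q : Fin n → FP × X, ‖Real.cos (phases q) * kgap b lam y q‖ ≤ (n : ℝ) ^ 2 / 8 * S q := by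
    intro q
    obtain ⟨a, c⟩ := exp_gap h0 h1 (E := fun j => penergy (blkC b j y) q)
      (fun j => energy_nonneg _ _)
    have hv := energy_var b h0 y q
    rw [Real.norm_eq_abs, abs_mul]
    refine (mul_le_of_le_one_left (abs_nonneg _) (Real.abs_cos_le_one _)).trans ?_
    rw [kgap, abs_of_nonneg a]
    simp only [S]
    linarith
  rw [he]
  calc |∫ q, Real.cos (phases q) * kgap b lam y q ∂(repl ν w n)|
      ≤ ∫ q, ‖Real.cos (phases q) * kgap b lam y q‖ ∂(repl ν w n) :=
        by rw [← Real.norm_eq_abs]; exact norm_integral_le_integral_norm _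
    _ ≤ ∫ q, (n : ℝ) ^ 2 / 8 * S q ∂(repl ν w n) := integral_mono hi.norm (hS.const_mul _) hpt
    _ ≤ (n : ℝ) ^ 2 / 8 * ((n : ℝ) ^ 2 * (msq ν ^ 2 * wvar w b lam y)) := by
        rw [integral_const_mul]
        refine mul_le_mul_of_nonneg_left ?_ (by positivity)
        simp only [S]
        rw [integral_finsetSum _ fun l _ => integrable_finsetSum _ fun m _ =>
          (pair_term hν h0 h1 hy hun l m).1]
        simp_rw [fun l => integral_finsetSum (Finset.univ : Finset (Fin n))
          fun m _ => (pair_term hν h0 h1 hy hun l m).1]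
        refine (Finset.sum_le_sum fun l _ => Finset.sum_le_sum fun m _ =>
          (pair_term hν h0 h1 hy hun l m).2).trans (le_of_eq ?_)
        simp only [Finset.sum_const, Finset.card_univ, Fintype.card_fin, nsmul_eq_mul]
        ring
    _ = _ := by ring

lemma penergy_fin_two (j : K) (q : Fin 2 → FP × X)
    (hx : ∀ l, ∑ i, blkC b j y (q l).2 i ^ 2 = 1) :
    penergy (blkC b j y) q = ((q 0).1.1 ^ 2 + (q 1).1.1 ^ 2) / 2
      + (q 0).1.1 * (q 1).1.1 * ov b y j (q 0).2 (q 1).2 := by
  rw [energy_blk, Fin.sum_univ_two, Fin.sum_univ_two, Fin.sum_univ_two]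
  have h00 : ov b y j (q 0).2 (q 0).2 = 1 := by simpa [ov, ← sq] using hx 0
  have h11 : ov b y j (q 1).2 (q 1).2 = 1 := by simpa [ov, ← sq] using hx 1
  have hc : ov b y j (q 1).2 (q 0).2 = ov b y j (q 0).2 (q 1).2 := by
    unfold ov; exact Finset.sum_congr rfl fun i _ => mul_comm _ _
  rw [h00, h11, hc]
  ring

/-- The second order gap is at least a multiple of the overlap variance. -/
lemma mgap_two (hν : Integrable (fun p : FP => p.1 ^ 2) ν) {δ : ℝ}
    (hδ : ∀ r ∈ Set.Icc (-1 : ℝ) 1, δ ≤ curv ν r) (h0 : ∀ j, 0 ≤ lam j)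
    (h1 : ∑ j, lam j = 1) (hy : Measurable y) (hun : UnitBlk b lam y w) :
    δ / 2 * wvar w b lam y ≤ mgap w b ν lam y 2 := by
  obtain ⟨hi, he⟩ := mgap_eq (ν := ν) (w := w) h0 hy 2
  set D : (FP × X) × (FP × X) → ℝ := fun p =>
    (∑ j, lam j * two (p.1.1, p.2.1) (ov b y j p.1.2 p.2.2))
      - two (p.1.1, p.2.1) (∑ j, lam j * ov b y j p.1.2 p.2.2) with hD
  have hov := fun j => measurable_ov b hy j
  have hDm : Measurable D := by
    simp only [hD]
    unfold two
    fun_prop
  set T := ((symP ν).prod w).prod ((symP ν).prod w) with hT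
  have hu2 : ∀ᵐ p ∂T, UnitAt b lam y p.1.2 ∧ UnitAt b lam y p.2.2 := by
    have h : ∀ᵐ a ∂((symP ν).prod w), UnitAt b lam y a.2 :=
      (Measure.quasiMeasurePreserving_snd).ae hun
    exact ((Measure.quasiMeasurePreserving_fst).ae h).and ((Measure.quasiMeasurePreserving_snd).ae h)
  have hmid : ∀ {x x' : X}, UnitAt b lam y x → UnitAt b lam y x' →
      (∑ j, lam j * ov b y j x x') ∈ Set.Icc (-1 : ℝ) 1 := by
    intro x x' hx hx'
    refine Set.mem_Icc.2 (abs_le.1 ((Finset.abs_sum_le_sum_abs _ _).trans ?_))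
    rw [← h1]
    refine Finset.sum_le_sum fun i _ => ?_
    rw [abs_mul, abs_of_nonneg (h0 i)]
    by_cases hi : lam i = 0
    · simp [hi]
    · exact mul_le_of_le_one_right (h0 i) (abs_le.2 (Set.mem_Icc.1 (abs_ov_le (hx i hi) (hx' i hi))))
  have hDb : ∀ᵐ p ∂T, ‖D p‖ ≤ 2 := by
    filter_upwards [hu2] with p hp
    rw [Real.norm_eq_abs]
    refine (abs_sub _ _).trans ?_
    have a : |∑ j, lam j * two (p.1.1, p.2.1) (ov b y j p.1.2 p.2.2)| ≤ 1 := by
      refine (Finset.abs_sum_le_sum_abs _ _).trans ?_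
      rw [← h1]
      refine Finset.sum_le_sum fun i _ => ?_
      rw [abs_mul, abs_of_nonneg (h0 i)]
      by_cases hi : lam i = 0
      · simp [hi]
      · exact mul_le_of_le_one_right (h0 i) (abs_two_le _ (abs_ov_le (hp.1 i hi) (hp.2 i hi)))
    linarith [abs_two_le (p.1.1, p.2.1) (hmid hp.1 hp.2)]
  have hDi : Integrable D T := Integrable.of_bound hDm.aestronglyMeasurable 2 hDb
  have h2 := measurePreserving_finTwoArrow ((symP ν).prod w)
  have hq : ∫ q, Real.cos (phases q) * kgap b lam y q ∂(repl ν w 2) = ∫ p, D p ∂T := by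
    conv_rhs => rw [hT, ← h2.map_eq]
    rw [integral_map h2.measurable.aemeasurable hDm.aestronglyMeasurable]
    refine integral_congr_ae ?_
    filter_upwards [ae_repl hun 2] with q hq
    have e : ∀ j, lam j * Real.exp (-penergy (blkC b j y) q)
        = lam j * Real.exp (-(((q 0).1.1 ^ 2 + (q 1).1.1 ^ 2) / 2
          + (q 0).1.1 * (q 1).1.1 * ov b y j (q 0).2 (q 1).2)) := by
      intro j
      by_cases hj : lam j = 0
      · simp [hj]
      · rw [penergy_fin_two j q fun l => hq l j hj]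
    have e' : ∑ j, lam j * penergy (blkC b j y) q
        = ((q 0).1.1 ^ 2 + (q 1).1.1 ^ 2) / 2
          + (q 0).1.1 * (q 1).1.1 * ∑ j, lam j * ov b y j (q 0).2 (q 1).2 := by
      have : ∀ j, lam j * penergy (blkC b j y) q = lam j * (((q 0).1.1 ^ 2 + (q 1).1.1 ^ 2) / 2)
          + (q 0).1.1 * (q 1).1.1 * (lam j * ov b y j (q 0).2 (q 1).2) := by
        intro j
        by_cases hj : lam j = 0
        · simp [hj]
        · rw [penergy_fin_two j q fun l => hq l j hj]; ring
      rw [Finset.sum_congr rfl fun j _ => this j, Finset.sum_add_distrib, ← Finset.sum_mul, h1,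
        one_mul, ← Finset.mul_sum]
    simp only [kgap, e, e', hD, two, MeasurableEquiv.finTwoArrow, MeasurableEquiv.piFinTwo,
      phases, Fin.sum_univ_two]
    simp only [mul_sub, Finset.mul_sum]
    congr 1
    exact Finset.sum_congr rfl fun j _ => by simp; ring
  have hsh : MeasurePreserving (fun p : (FP × FP) × (X × X) => ((p.1.1, p.2.1), (p.1.2, p.2.2)))
      (((symP ν).prod (symP ν)).prod (w.prod w)) T := by
    refine ⟨by fun_prop, ?_⟩
    refine (Measure.prod_eq_generateFrom generateFrom_prod generateFrom_prod isPiSystem_prod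
      isPiSystem_prod
      ((symP ν).toFiniteSpanningSetsIn.prod w.toFiniteSpanningSetsIn)
      ((symP ν).toFiniteSpanningSetsIn.prod w.toFiniteSpanningSetsIn) ?_).symm
    rintro _ ⟨s1, hs1', s2, hs2', rfl⟩ _ ⟨t1, ht1', t2, ht2', rfl⟩
    have hs1 : MeasurableSet s1 := hs1'
    have hs2 : MeasurableSet s2 := hs2'
    have ht1 : MeasurableSet t1 := ht1'
    have ht2 : MeasurableSet t2 := ht2'
    rw [Measure.map_apply (by fun_prop) ((MeasurableSet.prod hs1 hs2).prod (MeasurableSet.prod ht1 ht2)),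
      show (fun p : (FP × FP) × (X × X) => ((p.1.1, p.2.1), (p.1.2, p.2.2))) ⁻¹'
          ((s1 ×ˢ s2) ×ˢ (t1 ×ˢ t2)) = (s1 ×ˢ t1) ×ˢ (s2 ×ˢ t2) by
        ext p; simp only [Set.mem_preimage, Set.mem_prod]; tauto]
    simp only [Measure.prod_prod]
    ring
  rw [he, hq, ← hsh.map_eq, integral_map hsh.measurable.aemeasurable hDm.aestronglyMeasurable,
    wvar, ← integral_const_mul]
  have hDi' : Integrable (fun p : (FP × FP) × (X × X) => D ((p.1.1, p.2.1), (p.1.2, p.2.2)))
      (((symP ν).prod (symP ν)).prod (w.prod w)) := hsh.integrable_comp_of_integrable hDi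
  rw [integral_prod_symm _ hDi']
  refine integral_mono_ae ((integrable_ovVar h0 h1 hy hun).const_mul _) hDi'.integral_prod_right ?_
  filter_upwards [ae_pair hun] with p hp
  refine (pair_gap hν hδ b h0 h1 y hp.1 hp.2).trans (le_of_eq ?_)
  have hint : ∀ r ∈ Set.Icc (-1 : ℝ) 1, Integrable (fun a => two a r) ((symP ν).prod (symP ν)) :=
    fun r hr => Integrable.of_bound (by unfold two; fun_prop) 1
      (Eventually.of_forall fun a => by simpa using abs_two_le a hr)
  have hint' : ∀ j, Integrable (fun a => lam j * two a (ov b y j p.1 p.2))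
      ((symP ν).prod (symP ν)) := by
    intro j
    by_cases hj : lam j = 0
    · simp [hj]
    · exact (hint _ (abs_ov_le (hp.1 j hj) (hp.2 j hj))).const_mul _
  simp only [hD, Prod.mk.eta]
  rw [integral_sub (integrable_finsetSum _ fun j _ => hint' j) (hint _ (hmid hp.1 hp.2)),
    integral_finsetSum _ fun j _ => hint' j]
  simp only [integral_const_mul, moment2]

end Vale.Agent.P157
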